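import Vale.Agent.P224.S11.ZeroF
import Vale.Agent.P224.S11.RegX
import Vale.Agent.P224.SP.LogB

/-!
The certificate with a parameter in dimension 11 at the parameter zero: data.
-/

namespace Vale.Agent.P224.S11

open Vale.Agent.P224.UE Vale.Agent.P224.POS Vale.Agent.P224.PO Vale.Agent.P224.SO Set
open scoped RealInnerProductSpace

noncomputable section

/-- the values at zero of the free value functions, times the denominator -/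
def F0 : List (VK × ℤ) := [
  (⟨6, 0, 0, 0, 0⟩, 6834946017696),
  (⟨6, 0, 0, 0, 1⟩, -13669892035392),
  (⟨6, 0, 0, 0, 2⟩, 6834946017696),
  (⟨6, 0, 1, 0, 0⟩, 34052463803520),
  (⟨6, 0, 1, 0, 1⟩, -54435035571648),
  (⟨6, 0, 1, 0, 2⟩, 20382571768128),
  (⟨6, 0, 1, 1, 0⟩, 23800044776976),
  (⟨6, 0, 1, 1, 1⟩, -20382571768128),
  (⟨6, 0, 2, 0, 0⟩, 23800044776976),
  (⟨6, 0, 2, 0, 1⟩, -20382571768128),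
  (⟨6, 0, 2, 1, 0⟩, 15286928826096),
  (⟨6, 0, 3, 0, 0⟩, 5095642942032),
  (⟨6, 1, 0, 0, 0⟩, -13657123562832),
  (⟨6, 1, 0, 0, 1⟩, 13644355090272),
  (⟨6, 1, 0, 0, 2⟩, 12768472560),
  (⟨6, 1, 1, 0, 0⟩, -54409498626528),
  (⟨6, 1, 1, 0, 1⟩, 40739606591136),
  (⟨6, 1, 1, 0, 2⟩, 0),
  (⟨6, 1, 1, 1, 0⟩, -20376187531848),
  (⟨6, 1, 1, 1, 1⟩, 0),
  (⟨6, 1, 2, 0, 0⟩, -20376187531848),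
  (⟨6, 1, 2, 0, 1⟩, 0),
  (⟨6, 1, 2, 1, 0⟩, 0),
  (⟨6, 1, 3, 0, 0⟩, 0),
  (⟨6, 2, 0, 0, 0⟩, 6809409072576),
  (⟨6, 2, 0, 0, 1⟩, 25536945120),
  (⟨6, 2, 0, 0, 2⟩, 0),
  (⟨6, 2, 1, 0, 0⟩, 20357034823008),
  (⟨6, 2, 1, 0, 1⟩, 0),
  (⟨6, 2, 1, 0, 2⟩, 0),
  (⟨6, 2, 1, 1, 0⟩, 0),
  (⟨6, 2, 1, 1, 1⟩, 0),
  (⟨6, 2, 2, 0, 0⟩, 0),
  (⟨6, 2, 2, 0, 1⟩, 0),
  (⟨6, 2, 2, 1, 0⟩, 0),
  (⟨6, 2, 3, 0, 0⟩, 0),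
  (⟨6, 3, 0, 0, 0⟩, 12768472560),
  (⟨6, 3, 0, 0, 1⟩, 0),
  (⟨6, 3, 0, 0, 2⟩, 0),
  (⟨6, 3, 1, 0, 0⟩, 0),
  (⟨6, 3, 1, 0, 1⟩, 0),
  (⟨6, 3, 1, 0, 2⟩, 0),
  (⟨6, 3, 1, 1, 0⟩, 0),
  (⟨6, 3, 1, 1, 1⟩, 0),
  (⟨6, 3, 2, 0, 0⟩, 0),
  (⟨6, 3, 2, 0, 1⟩, 0),
  (⟨6, 3, 2, 1, 0⟩, 0),
  (⟨6, 3, 3, 0, 0⟩, 0),
  (⟨6, 4, 0, 0, 0⟩, 0),
  (⟨6, 4, 0, 0, 1⟩, 0),
  (⟨6, 4, 1, 0, 0⟩, 0),
  (⟨6, 4, 1, 0, 1⟩, 0),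
  (⟨6, 4, 1, 1, 0⟩, 0),
  (⟨6, 4, 2, 0, 0⟩, 0),
  (⟨6, 5, 0, 0, 0⟩, 0),
  (⟨6, 5, 1, 0, 0⟩, 0),
  (⟨7, 0, 0, 0, 0⟩, -13081100489232),
  (⟨7, 0, 0, 0, 1⟩, 26162200978464),
  (⟨7, 0, 0, 0, 2⟩, -13081100489232),
  (⟨7, 0, 1, 0, 0⟩, -62219182411488),
  (⟨7, 0, 1, 0, 1⟩, 98276163844512),
  (⟨7, 0, 1, 0, 2⟩, -36056981433024),
  (⟨7, 0, 1, 1, 0⟩, -346979272529112),
  (⟨7, 0, 1, 1, 1⟩, 243968001048520),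
  (⟨7, 0, 1, 1, 2⟩, -3936053876416),
  (⟨7, 0, 2, 0, 0⟩, 253912101421000),
  (⟨7, 0, 2, 0, 1⟩, -156109822676808),
  (⟨7, 0, 2, 0, 2⟩, -3936053876416),
  (⟨7, 0, 2, 1, 0⟩, -56145698196772),
  (⟨7, 0, 2, 1, 1⟩, -12786637956560),
  (⟨7, 0, 2, 2, 0⟩, -2952040407312),
  (⟨7, 0, 3, 0, 0⟩, 4344501258084),
  (⟨7, 0, 3, 0, 1⟩, 28530853462224),
  (⟨7, 0, 3, 1, 0⟩, -3936053876416),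
  (⟨7, 0, 4, 0, 0⟩, -984013469104),
  (⟨7, 1, 0, 0, 0⟩, 26162200978464),
  (⟨7, 1, 0, 0, 1⟩, -26162200978464),
  (⟨7, 1, 1, 0, 0⟩, 98276163844512),
  (⟨7, 1, 1, 0, 1⟩, -72113962866048),
  (⟨7, 1, 1, 1, 0⟩, 44692231395176),
  (⟨7, 1, 1, 1, 1⟩, -7872107752832),
  (⟨7, 1, 1, 1, 2⟩, 0),
  (⟨7, 1, 2, 0, 0⟩, 43165946976536),
  (⟨7, 1, 2, 0, 1⟩, -7872107752832),
  (⟨7, 1, 2, 0, 2⟩, 0),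
  (⟨7, 1, 2, 1, 0⟩, 11808161629248),
  (⟨7, 1, 2, 1, 1⟩, 0),
  (⟨7, 1, 2, 2, 0⟩, 0),
  (⟨7, 1, 3, 0, 0⟩, 3936053876416),
  (⟨7, 1, 3, 0, 1⟩, 0),
  (⟨7, 1, 3, 1, 0⟩, 0),
  (⟨7, 1, 4, 0, 0⟩, 0),
  (⟨7, 2, 0, 0, 0⟩, -13081100489232),
  (⟨7, 2, 1, 0, 0⟩, -36056981433024),
  (⟨7, 2, 1, 1, 0⟩, -3936053876416),
  (⟨7, 2, 1, 1, 1⟩, 0),
  (⟨7, 2, 1, 1, 2⟩, 0),
  (⟨7, 2, 2, 0, 0⟩, -3936053876416),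
  (⟨7, 2, 2, 0, 1⟩, 0),
  (⟨7, 2, 2, 0, 2⟩, 0),
  (⟨7, 2, 2, 1, 0⟩, 0),
  (⟨7, 2, 2, 1, 1⟩, 0),
  (⟨7, 2, 2, 2, 0⟩, 0),
  (⟨7, 2, 3, 0, 0⟩, 0),
  (⟨7, 2, 3, 0, 1⟩, 0),
  (⟨7, 2, 3, 1, 0⟩, 0),
  (⟨7, 2, 4, 0, 0⟩, 0),
  (⟨7, 3, 1, 1, 0⟩, 0),
  (⟨7, 3, 1, 1, 1⟩, 0),
  (⟨7, 3, 1, 1, 2⟩, 0),
  (⟨7, 3, 2, 0, 0⟩, 0),
  (⟨7, 3, 2, 0, 1⟩, 0),
  (⟨7, 3, 2, 0, 2⟩, 0),
  (⟨7, 3, 2, 1, 0⟩, 0),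
  (⟨7, 3, 2, 1, 1⟩, 0),
  (⟨7, 3, 2, 2, 0⟩, 0),
  (⟨7, 3, 3, 0, 0⟩, 0),
  (⟨7, 3, 3, 0, 1⟩, 0),
  (⟨7, 3, 3, 1, 0⟩, 0),
  (⟨7, 3, 4, 0, 0⟩, 0),
  (⟨7, 4, 1, 1, 0⟩, 0),
  (⟨7, 4, 1, 1, 1⟩, 0),
  (⟨7, 4, 2, 0, 0⟩, 0),
  (⟨7, 4, 2, 0, 1⟩, 0),
  (⟨7, 4, 2, 1, 0⟩, 0),
  (⟨7, 4, 3, 0, 0⟩, 0),
  (⟨7, 5, 1, 1, 0⟩, 0),
  (⟨7, 5, 2, 0, 0⟩, 0),
  (⟨8, 0, 0, 0, 0⟩, 8210795726000),
  (⟨8, 0, 0, 0, 1⟩, -16421591452000),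
  (⟨8, 0, 0, 0, 2⟩, 8210795726000),
  (⟨8, 0, 1, 0, 0⟩, 36672804008976),
  (⟨8, 0, 1, 0, 1⟩, -56924016565952),
  (⟨8, 0, 1, 0, 2⟩, 20251212556976),
  (⟨8, 0, 1, 1, 0⟩, 393386501686624),
  (⟨8, 0, 1, 1, 1⟩, -289909405123544),
  (⟨8, 0, 1, 1, 2⟩, 6187860850832),
  (⟨8, 0, 2, 0, 0⟩, -332297559145008),
  (⟨8, 0, 2, 0, 1⟩, 224655536606264),
  (⟨8, 0, 2, 0, 2⟩, 6187860850832),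
  (⟨8, 0, 2, 1, 0⟩, 54729453991364),
  (⟨8, 0, 2, 1, 1⟩, 13250515988408),
  (⟨8, 0, 2, 2, 0⟩, 47471078528926),
  (⟨8, 0, 2, 2, 1⟩, -57508874789742),
  (⟨8, 0, 3, 0, 0⟩, -9726798031060),
  (⟨8, 0, 3, 0, 1⟩, -38001959391736),
  (⟨8, 0, 3, 1, 0⟩, 6187860850832),
  (⟨8, 0, 4, 0, 0⟩, -41283217678094),
  (⟨8, 0, 4, 0, 1⟩, 57508874789742),
  (⟨8, 1, 0, 0, 0⟩, -16421591452000),
  (⟨8, 1, 0, 0, 1⟩, 16421591452000),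
  (⟨8, 1, 1, 0, 0⟩, -56924016565952),
  (⟨8, 1, 1, 0, 1⟩, 40502425113952),
  (⟨8, 1, 1, 1, 0⟩, -32626934258640),
  (⟨8, 1, 1, 1, 1⟩, 12375721701664),
  (⟨8, 1, 2, 0, 0⟩, -32626934258640),
  (⟨8, 1, 2, 0, 1⟩, 12375721701664),
  (⟨8, 1, 2, 1, 0⟩, -18563582552496),
  (⟨8, 1, 2, 2, 0⟩, 0),
  (⟨8, 1, 2, 2, 1⟩, 0),
  (⟨8, 1, 3, 0, 0⟩, -6187860850832),
  (⟨8, 1, 4, 0, 0⟩, 0),
  (⟨8, 1, 4, 0, 1⟩, 0),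
  (⟨8, 2, 0, 0, 0⟩, 8210795726000),
  (⟨8, 2, 1, 0, 0⟩, 20251212556976),
  (⟨8, 2, 1, 1, 0⟩, 6187860850832),
  (⟨8, 2, 2, 0, 0⟩, 6187860850832),
  (⟨8, 2, 2, 2, 0⟩, 0),
  (⟨8, 2, 2, 2, 1⟩, 0),
  (⟨8, 2, 4, 0, 0⟩, 0),
  (⟨8, 2, 4, 0, 1⟩, 0),
  (⟨8, 3, 2, 2, 0⟩, 0),
  (⟨8, 3, 2, 2, 1⟩, 0),
  (⟨8, 3, 4, 0, 0⟩, 0),
  (⟨8, 3, 4, 0, 1⟩, 0),
  (⟨9, 0, 0, 0, 0⟩, -1975564188240),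
  (⟨9, 0, 0, 0, 1⟩, 3951128376480),
  (⟨9, 0, 0, 0, 2⟩, -1975564188240),
  (⟨9, 0, 1, 0, 0⟩, -8524513176560),
  (⟨9, 0, 1, 0, 1⟩, 13097897976640),
  (⟨9, 0, 1, 0, 2⟩, -4573384800080),
  (⟨9, 0, 1, 1, 0⟩, -70250911956840),
  (⟨9, 0, 1, 1, 1⟩, 66317139659152),
  (⟨9, 0, 1, 1, 2⟩, -2251806974416),
  (⟨9, 0, 2, 0, 0⟩, 54624964219608),
  (⟨9, 0, 2, 0, 1⟩, -48163142161328),
  (⟨9, 0, 2, 0, 2⟩, -2251806974416),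
  (⟨9, 0, 2, 1, 0⟩, -14533794468688),
  (⟨9, 0, 2, 1, 1⟩, -463878031848),
  (⟨9, 0, 2, 2, 0⟩, -44519038121614),
  (⟨9, 0, 2, 2, 1⟩, 57508874789742),
  (⟨9, 0, 3, 0, 0⟩, 953181770944),
  (⟨9, 0, 3, 0, 1⟩, 9471105929512),
  (⟨9, 0, 3, 1, 0⟩, -2251806974416),
  (⟨9, 0, 4, 0, 0⟩, 42267231147198),
  (⟨9, 0, 4, 0, 1⟩, -57508874789742),
  (⟨9, 1, 0, 0, 0⟩, 3951128376480),
  (⟨9, 1, 0, 0, 1⟩, -3951128376480),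
  (⟨9, 1, 1, 0, 0⟩, 13097897976640),
  (⟨9, 1, 1, 0, 1⟩, -9146769600160),
  (⟨9, 1, 1, 1, 0⟩, 9076998748912),
  (⟨9, 1, 1, 1, 1⟩, -4503613948832),
  (⟨9, 1, 2, 0, 0⟩, 9076998748912),
  (⟨9, 1, 2, 0, 1⟩, -4503613948832),
  (⟨9, 1, 2, 1, 0⟩, 6755420923248),
  (⟨9, 1, 3, 0, 0⟩, 2251806974416),
  (⟨9, 2, 0, 0, 0⟩, -1975564188240),
  (⟨9, 2, 1, 0, 0⟩, -4573384800080),
  (⟨9, 2, 1, 1, 0⟩, -2251806974416),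
  (⟨9, 2, 2, 0, 0⟩, -2251806974416)]

/-- the kernel identity for the free value functions at zero -/
theorem F0_id : chk [] ((PE.mul (.c 1) (fPE F0)).sub (zPE (-2886190247424) 3691077568 1012768))
    = true := by
  decide +kernel

lemma logl : Real.log (24 / 5) = (3) * Real.log 2 + (1) * Real.log 3 + (-1) * Real.log 5 := by
  rw [Real.log_div (by norm_num) (by norm_num)]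
  have h24 : Real.log 24 = 3 * Real.log 2 + 1 * Real.log 3 := by
    rw [show (24 : ℝ) = (2 : ℝ) ^ 3 * (3 : ℝ) ^ 1 by norm_num]
    rw [Real.log_mul (by norm_num) (by norm_num)]
    simp only [Real.log_pow]
    norm_num
  have h5 : Real.log 5 = 1 * Real.log 5 := by
    rw [show (5 : ℝ) = (5 : ℝ) ^ 1 by norm_num]
    simp only [Real.log_pow]
    norm_num
  rw [h24, h5]
  ring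

/-- the small number of the identity at zero -/
def XD : ℝ := (30 * Real.log (24 / 5) - 47)

lemma XD_bd : (58477537 / 1000000000) ≤ XD ∧ XD ≤ (292387689 / 5000000000) := by
  have b2 := LG.bd2
  have b3 := LG.bd3
  have b5 := LG.bd5
  unfold XD
  rw [logl]
  constructor <;> linarith [b2.1, b2.2, b3.1, b3.2, b5.1, b5.2]

/-- the coefficient of the cube -/
def kapD : ℝ := (1550801 / 180224)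

/-- the coefficient of `‖e‖ ^ 2` -/
def gamD : ℝ := (6144 / 847) + (-5120 / 847) * Real.log (24 / 5) + (10240 / 847) * KK + (8405 / 2869636) * kapD

/-- the coefficient of the resource -/
def rhoD : ℝ := (147 / 88) * (30 * Real.log (24 / 5) - 47)

/-- **The inequality at the parameter zero**, with the data. -/
theorem h0_D {Vp Vf : List VE}
    (hp : (Vp.map fun x => (x.K, x.g 0)) = pivV ll KK)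
    (hf : (Vf.map fun x => (x.K, x.g 0)) = F0.map fun y => (y.1, (y.2 : ℝ) / 84437106688))
    {E : Type*} [NormedAddCommGroup E] [InnerProductSpace ℝ E] (x N y w : E) :
    ((lG (Vp ++ Vf)).map fun t => t.φ 0 * t.Q (dv x N y w 0)).sum
      ≤ √11 * (1 + gamD * dv x N y w (0 : E) 3
          - (rhoD * RF (-(118/21)) 74 (-((2 / 5) * √30)) (dv x N y w 0)
            + kapD * dv x N y w (0 : E) 0 ^ 3) + R00 (√30) ll kapD (dv x N y w 0)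
          - ((1 / 5) * ((⟪x, w⟫ - ⟪N, y⟫) / 2) ^ 2
            + (11 / 500) * (⟪N, w⟫ - ⟪x, y⟫ - √30 / 30 * ((⟪x, w⟫ + ⟪N, y⟫) / 2)) ^ 2)) :=
  h0_of (l := ll) (K := KK) (κ := kapD) (ℓu := (1 / 5)) (ℓv := (11 / 500)) XD_bd.1 XD_bd.2 hp hf
    (fun f hf5 =>
      hQ_of F0_id (D0 := 84437106688) (by norm_num) (by norm_num)
        (by unfold kapD; norm_num) (by norm_num) (by norm_num) f hf5) x N y w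

end

end Vale.Agent.P224.S11
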