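import Vale.Agent.P224.S11.ZeroD

/-!
Numerical bounds for the constants of the certificate with a parameter in dimension 11.
-/

namespace Vale.Agent.P224.S11

noncomputable section

lemma L13_one : L13 1 = Real.log ((8 + 1 * √55) / 3) := by
  have h : √(20 / 11 : ℝ) = (2 / 11) * √55 := by
    rw [show (20 / 11 : ℝ) = ((2 / 11) * √55) ^ 2 by
      rw [mul_pow, Real.sq_sqrt (by norm_num)]; norm_num]
    exact Real.sqrt_sq (by positivity)
  unfold L13 SP.qL SP.qD SP.qR
  rw [show (1 : ℝ) + 10 / 11 * 1 + (-1 / 11) * 1 ^ 2 = 20 / 11 by norm_num, h]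
  congr 1
  ring

lemma log_rho : Real.log (36 / 7) = (2) * Real.log 2 + (2) * Real.log 3 + (-1) * Real.log 7 := by
  rw [Real.log_div (by norm_num) (by norm_num)]
  have h36 : Real.log 36 = 2 * Real.log 2 + 2 * Real.log 3 := by
    rw [show (36 : ℝ) = (2 : ℝ) ^ 2 * (3 : ℝ) ^ 2 by norm_num]
    rw [Real.log_mul (by norm_num) (by norm_num)]
    simp only [Real.log_pow]
    norm_num
  have h7 : Real.log 7 = 1 * Real.log 7 := by
    rw [show (7 : ℝ) = (7 : ℝ) ^ 1 by norm_num]
    simp only [Real.log_pow]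
    norm_num
  rw [h36, h7]
  ring

lemma log_lg : Real.log (6 / 5) = (1) * Real.log 2 + (1) * Real.log 3 + (-1) * Real.log 5 := by
  rw [Real.log_div (by norm_num) (by norm_num)]
  have h6 : Real.log 6 = 1 * Real.log 2 + 1 * Real.log 3 := by
    rw [show (6 : ℝ) = (2 : ℝ) ^ 1 * (3 : ℝ) ^ 1 by norm_num]
    rw [Real.log_mul (by norm_num) (by norm_num)]
    simp only [Real.log_pow]
    norm_num
  have h5 : Real.log 5 = 1 * Real.log 5 := by
    rw [show (5 : ℝ) = (5 : ℝ) ^ 1 by norm_num]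
    simp only [Real.log_pow]
    norm_num
  rw [h6, h5]
  ring

lemma KK_bd : (2269573 : ℝ) / 10000000 ≤ KK ∧ KK ≤ 2269581 / 10000000 := by
  have b2 := LG.bd2
  have b3 := LG.bd3
  have b5 := LG.bd5
  have b7 := LG.bd7
  have s1 : (7416198486 : ℝ) / 1000000000 ≤ √55 := Real.le_sqrt_of_sq_le (by norm_num)
  have s2 : √(55 : ℝ) ≤ 7416198488 / 1000000000 := Real.sqrt_le_iff.2 ⟨by norm_num, by norm_num⟩
  have s3 : √(55 : ℝ) ^ 2 = 55 := Real.sq_sqrt (by norm_num)
  have up : Real.log ((8 + 1 * √55) / 3) ≤ Real.log (36 / 7)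
      + (8 + 1 * √55) / 3 * (7 / 36) - 1 := by
    have h1 : Real.log ((8 + 1 * √55) / 3 * (7 / 36))
        = Real.log ((8 + 1 * √55) / 3) + Real.log (7 / 36) :=
      Real.log_mul (by positivity) (by norm_num)
    have h2 : Real.log (7 / 36) = -Real.log (36 / 7) := by
      rw [← Real.log_inv]
      norm_num
    have h3 := Real.log_le_sub_one_of_pos
      (show 0 < (8 + 1 * √55) / 3 * (7 / 36) by positivity)
    linarith
  have hpos : 0 < (8 - 1 * √55) / 3 := by
    have : 0 < 8 - 1 * √(55 : ℝ) := by linarith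
    positivity
  have lo : Real.log (36 / 7) + 1 - (8 - 1 * √55) / 3 * (36 / 7)
      ≤ Real.log ((8 + 1 * √55) / 3) := by
    have h1 : Real.log ((8 - 1 * √55) / 3 * (36 / 7))
        = Real.log ((8 - 1 * √55) / 3) + Real.log (36 / 7) :=
      Real.log_mul hpos.ne' (by norm_num)
    have h2 : Real.log ((8 - 1 * √55) / 3)
        = -Real.log ((8 + 1 * √55) / 3) := by
      rw [← Real.log_inv]
      congr 1
      exact eq_inv_of_mul_eq_one_left (by
        linear_combination (-(1 ^ 2 / (3 : ℝ) ^ 2)) * s3)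
    have h3 := Real.log_le_sub_one_of_pos
      (show 0 < (8 - 1 * √55) / 3 * (36 / 7) from
        mul_pos hpos (by norm_num))
    linarith
  unfold KK cst11
  rw [L13_one, log_lg]
  rw [log_rho] at up lo
  constructor <;> linarith [b2.1, b2.2, b3.1, b3.2, b5.1, b5.2, b7.1, b7.2]

lemma gamD_bd : (540822 : ℝ) / 1000000 ≤ gamD ∧ gamD ≤ 540832 / 1000000 := by
  have b2 := LG.bd2
  have b3 := LG.bd3
  have b5 := LG.bd5
  have b7 := LG.bd7
  have hK := KK_bd
  unfold gamD kapD
  rw [logl]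
  constructor <;> linarith [b2.1, b2.2, b3.1, b3.2, b5.1, b5.2, b7.1, b7.2, hK.1, hK.2]

lemma rhoD_bd : (976840 : ℝ) / 10000000 ≤ rhoD ∧ rhoD ≤ 976841 / 10000000 := by
  have h := XD_bd
  unfold XD at h
  unfold rhoD
  constructor <;> linarith [h.1, h.2]

end

end Vale.Agent.P224.S11
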