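import Vale.Agent.P224.S7.Consts7

/-!
Constants for `m = 11`.
-/

namespace Vale.Agent.P224.S11

open Real Finset Vale.Agent.P224.SP Vale.Agent.P224.S7

lemma le_bd : |(10 : ℝ) ^ 21 * (2 * Real.log 11 - 3 * Real.log 2 - Real.log 3 - Real.log 5) -
    8298802814695093876| ≤ 1 := by
  have h := artanh_aux (x := 1 / 241) (by rw [abs_of_nonneg] <;> norm_num) 10
  have e : Real.log (1 + 1 / 241) - Real.log (1 - 1 / 241) =
      2 * Real.log 11 - 3 * Real.log 2 - Real.log 3 - Real.log 5 := by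
    rw [← Real.log_div (by norm_num) (by norm_num)]
    have e1 : ((1 + 1 / 241 : ℝ) / (1 - 1 / 241)) = 11 ^ 2 / (2 ^ 3 * 3 * 5) := by norm_num
    rw [e1, Real.log_div (by norm_num) (by norm_num), Real.log_pow,
      Real.log_mul (by norm_num) (by norm_num), Real.log_mul (by norm_num) (by norm_num),
      Real.log_pow]
    push_cast; ring
  rw [e, abs_of_nonneg (by norm_num : (0 : ℝ) ≤ 1 / 241)] at h
  simp only [Finset.sum_range_succ, Finset.sum_range_zero] at h
  rw [abs_le] at h ⊢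
  norm_num at h ⊢
  constructor <;> linarith [h.1, h.2]

lemma logA_eq : Real.log (24 / 5) = (3 * Real.log 2 + 1 * Real.log 3) - (1 * Real.log 5) := by
  have h1 : Real.log 24 = 3 * Real.log 2 + 1 * Real.log 3 := by
    rw [show (24 : ℝ) = 2 ^ 3 * 3 ^ 1 by norm_num,
      Real.log_mul (by norm_num) (by norm_num),
      Real.log_pow,
      Real.log_pow]
    push_cast; ring
  have h2 : Real.log 5 = 1 * Real.log 5 := (one_mul _).symm
  rw [Real.log_div (by norm_num) (by norm_num)]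
  linear_combination h1 - h2

theorem logA_bd : |(10 : ℝ) ^ 18 * Real.log (24 / 5) - 1568615917913845245| ≤ 3 / 4 := by
  rw [logA_eq]
  have h0 := la_bd
  have h1 := lb_bd
  have h2 := lc_bd
  have h3 := ld_bd
  have h4 := le_bd
  rw [abs_le] at h0 h1 h2 h3 h4 ⊢
  constructor <;> linarith [h0.1, h0.2, h1.1, h1.2, h2.1, h2.2, h3.1, h3.2, h4.1, h4.2]

lemma logE_eq : Real.log (121 / 30) = (2 * Real.log 11) - (1 * Real.log 2 + 1 * Real.log 3 + 1 * Real.log 5) := by
  have h1 : Real.log 121 = 2 * Real.log 11 := by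
    rw [show (121 : ℝ) = 11 ^ 2 by norm_num,
      Real.log_pow]
    push_cast; ring
  have h2 : Real.log 30 = 1 * Real.log 2 + 1 * Real.log 3 + 1 * Real.log 5 := by
    rw [show (30 : ℝ) = 2 ^ 1 * 3 ^ 1 * 5 ^ 1 by norm_num,
      Real.log_mul (by norm_num) (by norm_num),
      Real.log_mul (by norm_num) (by norm_num),
      Real.log_pow,
      Real.log_pow,
      Real.log_pow]
    push_cast; ring
  rw [Real.log_div (by norm_num) (by norm_num)]
  linear_combination h1 - h2

theorem logE_bd : |(10 : ℝ) ^ 18 * Real.log (121 / 30) - 1394593163934585713| ≤ 3 / 4 := by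
  rw [logE_eq]
  have h0 := la_bd
  have h1 := lb_bd
  have h2 := lc_bd
  have h3 := ld_bd
  have h4 := le_bd
  rw [abs_le] at h0 h1 h2 h3 h4 ⊢
  constructor <;> linarith [h0.1, h0.2, h1.1, h1.2, h2.1, h2.2, h3.1, h3.2, h4.1, h4.2]

lemma logB_eq : Real.log (11 / 3) = (1 * Real.log 11) - (1 * Real.log 3) := by
  have h1 : Real.log 11 = 1 * Real.log 11 := (one_mul _).symm
  have h2 : Real.log 3 = 1 * Real.log 3 := (one_mul _).symm
  rw [Real.log_div (by norm_num) (by norm_num)]
  linear_combination h1 - h2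

theorem logB_bd : |(10 : ℝ) ^ 18 * Real.log (11 / 3) - 1299282984130260853| ≤ 3 / 4 := by
  rw [logB_eq]
  have h0 := la_bd
  have h1 := lb_bd
  have h2 := lc_bd
  have h3 := ld_bd
  have h4 := le_bd
  rw [abs_le] at h0 h1 h2 h3 h4 ⊢
  constructor <;> linarith [h0.1, h0.2, h1.1, h1.2, h2.1, h2.2, h3.1, h3.2, h4.1, h4.2]

lemma sqrt_lo : (7416198487095662948711397 : ℝ) / 10 ^ 24 ≤ Real.sqrt 55 := by
  apply Real.le_sqrt_of_sq_le
  norm_num

lemma sqrt_hi : Real.sqrt 55 ≤ (7416198487095662948711398 : ℝ) / 10 ^ 24 := by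
  rw [Real.sqrt_le_left (by norm_num)]
  norm_num

theorem sqrt_bd : |(10 : ℝ) ^ 18 * Real.sqrt 55 - 7416198487095662949| ≤ 3 / 4 := by
  have h1 := sqrt_lo
  have h2 := sqrt_hi
  rw [abs_le]
  norm_num at h1 h2 ⊢
  constructor <;> linarith

theorem logU_bd : |(10 : ℝ) ^ 18 * Real.log ((8 + √55) / 3) - 1636806517756479836| ≤ 3 / 4 := by
  have h := artanh_aux (x := 401135800642850359422 / 10 ^ 24)
    (by rw [abs_of_nonneg] <;> norm_num) 8
  rw [abs_of_nonneg (by norm_num : (0 : ℝ) ≤ 401135800642850359422 / 10 ^ 24)] at h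
  have h1 := sqrt_lo
  have h2 := sqrt_hi
  set s := √55 with hs
  have hs0 : 0 ≤ s := Real.sqrt_nonneg _
  set p : ℝ := 1 + 401135800642850359422 / 10 ^ 24 with hp
  set m : ℝ := 1 - 401135800642850359422 / 10 ^ 24 with hm
  have hp0 : 0 < p := by rw [hp]; norm_num
  have hm0 : 0 < m := by rw [hm]; norm_num
  have e : Real.log ((8 + s) / 3) = ((2 * Real.log 2 + 2 * Real.log 3) - (1 * Real.log 7)) -
      (Real.log p - Real.log m) + Real.log ((8 + s) / 3 * p / (36 / 7 * m)) := by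
    have e0 : Real.log ((8 + s) / 3 * p / (36 / 7 * m)) =
        Real.log ((8 + s) / 3) + Real.log p - (Real.log (36 / 7) + Real.log m) := by
      rw [Real.log_div (by positivity) (by positivity), Real.log_mul (by positivity) hp0.ne',
        Real.log_mul (by norm_num) hm0.ne']
    have g1 : Real.log 36 = 2 * Real.log 2 + 2 * Real.log 3 := by
      rw [show (36 : ℝ) = 2 ^ 2 * 3 ^ 2 by norm_num,
        Real.log_mul (by norm_num) (by norm_num),
        Real.log_pow,
        Real.log_pow]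
      push_cast; ring
    have g2 : Real.log 7 = 1 * Real.log 7 := (one_mul _).symm
    have e2 : Real.log (36 / 7) = (2 * Real.log 2 + 2 * Real.log 3) - (1 * Real.log 7) := by
      rw [Real.log_div (by norm_num) (by norm_num)]
      linear_combination g1 - g2
    rw [e0, e2]
    ring
  have hr1 : |(8 + s) / 3 * p / (36 / 7 * m) - 1| ≤ 1 / 10 ^ 22 := by
    rw [div_sub_one (by positivity), abs_div, abs_of_pos (show 0 < 36 / 7 * m by positivity),
      div_le_iff₀ (by positivity), abs_le]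
    rw [hp, hm]
    norm_num at h1 h2 ⊢
    constructor <;> linarith
  have hr0 : 0 < (8 + s) / 3 * p / (36 / 7 * m) := by positivity
  have hr2 := Real.log_le_sub_one_of_pos hr0
  have hr3 : 1 - ((8 + s) / 3 * p / (36 / 7 * m))⁻¹ ≤
      Real.log ((8 + s) / 3 * p / (36 / 7 * m)) := Real.one_sub_inv_le_log_of_pos hr0
  rw [abs_le] at hr1
  have hr4 : ((8 + s) / 3 * p / (36 / 7 * m))⁻¹ ≤ 1 + 1 / 10 ^ 20 := by
    rw [inv_le_comm₀ hr0 (by positivity)]
    refine le_trans ?_ (by linarith [hr1.1] : 1 - 1 / 10 ^ 22 ≤ (8 + s) / 3 * p / (36 / 7 * m))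
    norm_num
  have k0 := la_bd
  have k1 := lb_bd
  have k2 := lc_bd
  have k3 := ld_bd
  have k4 := le_bd
  rw [e]
  set L := Real.log ((8 + s) / 3 * p / (36 / 7 * m)) with hL
  have hL1 : L ≤ 1 / 10 ^ 20 := by
    have : (1 : ℝ) / 10 ^ 22 ≤ 1 / 10 ^ 20 := by norm_num
    linarith [hr1.2]
  have hL2 : -(1 / 10 ^ 20) ≤ L := by linarith
  simp only [Finset.sum_range_succ, Finset.sum_range_zero] at h
  rw [abs_le] at h k0 k1 k2 k3 k4 ⊢
  norm_num at h ⊢
  norm_num at hL1 hL2
  constructor <;> linarith [h.1, h.2, k0.1, k0.2, k1.1, k1.2, k2.1, k2.2, k3.1, k3.2, k4.1, k4.2]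

end Vale.Agent.P224.S11
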