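import Vale.Agent.P224.S11.WtG
import Vale.Agent.P224.S11.CoreT

/-!
The pointwise inequality from truncated columns, rows with integer combinations of powers of `s`,
separate errors for the two squares.
-/

namespace Vale.Agent.P224.S11

open Vale.Agent.P224.UE Vale.Agent.P224.POS Vale.Agent.P224.PO Vale.Agent.P224.SO Set
open scoped RealInnerProductSpace

noncomputable section

/-- a column: the polynomial, the coefficients in the base functions, the approximation `Z` of `D`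
times the function with the error `E (1 - T) ^ h`, the parts with `u ^ 2` and with `v ^ 2` -/
structure Cz where
  M : PE
  r : List PE
  Z : PE
  E : ℕ
  h : ℕ
  L2 : WG
  L3 : WG

/-- the truncated column -/
def Cz.q (x : Cz) : PE := .add (.mul (.pow (.v 2) 2) x.L2.pe) (.mul (.pow (.v 3) 2) x.L3.pe)

/-- the truncated column is not zero -/
def Cz.nz (x : Cz) : Bool := !(x.L2.wm.isEmpty && x.L3.wm.isEmpty)

/-- the contact polynomial of the base function number `p` -/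
def Ctz (p : ℕ) : List Cz → PE
  | [] => .c 0
  | c :: l => .add (.mul (c.r.getD p (.c 0)) (pl c.M)) (Ctz p l)

/-- the approximate total -/
def Qz : List Cz → PE
  | [] => .c 0
  | c :: l => .add (.mul c.Z c.q) (Qz l)

/-- the identity of the truncation -/
def Cz.tr (c : Cz) : PE := .sub c.M (.add (pl c.M) c.q)

/-- the error polynomial -/
def pW2 (n2 n3 D2 D3 : ℕ) : PE :=
  .add (.mul (.mul (.c (Int.ofNat D2)) (.pow (.v 2) 2)) (.pow pP n2))
    (.mul (.mul (.c (Int.ofNat D3)) (.pow (.v 3) 2)) (.pow pP n3))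

/-- the error bound of a column -/
def eb (J n : ℕ) (L : Cz → WG) (x : Cz) : ℕ :=
  Bool.rec (motive := fun _ => ℕ) (x.E * WG.bd x.h n J (L x)) 0 (Nat.beq x.E 0)

/-- the errors are small enough -/
def errZ (J n2 n3 : ℕ) (l : List Cz) (D2 D3 : ℕ) : Bool :=
  (l.all fun x => Nat.beq x.E 0 || (WG.ok x.h n2 J x.L2 && WG.ok x.h n3 J x.L3))
    && decide ((l.map (eb J n2 Cz.L2)).sum ≤ D2 * 11 ^ J)
    && decide ((l.map (eb J n3 Cz.L3)).sum ≤ D3 * 11 ^ J)

lemma eb_eq (J n : ℕ) (L : Cz → WG) (x : Cz) : eb J n L x = x.E * WG.bd x.h n J (L x) := by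
  unfold eb
  cases hb : Nat.beq x.E 0 with
  | true =>
    have h3 : x.E = 0 := Nat.eq_of_beq_eq_true hb
    rw [h3, zero_mul]
  | false => rfl

lemma sum_plz {T : ℝ} {f : ℕ → ℝ} {l : List ((ℝ → ℝ) × Cz)} {n : ℕ} {b : ℕ → ℝ → ℝ} {Dn : ℝ}
    (h : ∀ c ∈ l, Dn * c.1 T = ∑ p ∈ Finset.range n, b p T * PE.ev f (c.2.r.getD p (.c 0))) :
    Dn * (l.map fun c => c.1 T * PE.ev f (pl c.2.M)).sum
      = ∑ p ∈ Finset.range n, b p T * PE.ev f (Ctz p (l.map fun c => c.2)) := by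
  induction l with
  | nil => simp [Ctz]
  | cons c l ih =>
    have h1 := h c List.mem_cons_self
    have h2 := ih fun u hu => h u (List.mem_cons_of_mem _ hu)
    have e2 : ∀ p, PE.ev f (Ctz p ((c :: l).map fun c => c.2))
        = PE.ev f (c.2.r.getD p (.c 0)) * PE.ev f (pl c.2.M)
          + PE.ev f (Ctz p (l.map fun c => c.2)) := by
      intro p
      rw [List.map_cons, Ctz, PE.ev_add, PE.ev_mul]
    rw [List.map_cons, List.sum_cons, mul_add, h2, ← mul_assoc, h1, Finset.sum_mul,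
      ← Finset.sum_add_distrib]
    refine Finset.sum_congr rfl fun p _ => ?_
    rw [e2]
    ring

lemma wm_nil {f : ℕ → ℝ} (hf : RgG f) {e : WG} (h : e.wm.isEmpty = true) : PE.ev f e.pe = 0 := by
  have := e.le hf
  rw [List.isEmpty_iff.1 h, evW_nil] at this
  exact abs_nonpos_iff.1 this

/-- the error terms -/
lemma errZ_le {J n2 n3 : ℕ} {T : ℝ} {f : ℕ → ℝ} (hf : RgG f) (hT : f 4 = T)
    {l : List ((ℝ → ℝ) × Cz)} {D : ℝ}
    (hδ : ∀ c ∈ l, c.2.nz = true → |D * c.1 T - PE.ev f c.2.Z| ≤ c.2.E * (1 - T) ^ c.2.h)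
    (hl : ∀ c ∈ l, c.2.E = 0
      ∨ (WG.ok c.2.h n2 J c.2.L2 = true ∧ WG.ok c.2.h n3 J c.2.L3 = true)) :
    11 ^ J * PE.ev f (Qz (l.map fun c => c.2))
      - (f 2 ^ 2 * (((l.map fun c => c.2).map (eb J n2 Cz.L2)).sum * (1 - f 4 * f 0) ^ n2)
        + f 3 ^ 2 * (((l.map fun c => c.2).map (eb J n3 Cz.L3)).sum * (1 - f 4 * f 0) ^ n3))
      ≤ 11 ^ J * (D * (l.map fun c => c.1 T * PE.ev f c.2.q).sum) := by
  induction l with
  | nil => simp [Qz]
  | cons x l ih =>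
    have h1 := ih (fun u hu => hδ u (List.mem_cons_of_mem _ hu))
      (fun u hu => hl u (List.mem_cons_of_mem _ hu))
    have h0 := hδ x List.mem_cons_self
    have hP0 := hf.r.P0
    have hT1 : 0 ≤ 1 - T := by rw [← hT]; linarith [hf.r.T1]
    have b2 : 0 ≤ f 2 ^ 2 * ((eb J n2 Cz.L2 x.2 : ℕ) * (1 - f 4 * f 0) ^ n2) := by positivity
    have b3 : 0 ≤ f 3 ^ 2 * ((eb J n3 Cz.L3 x.2 : ℕ) * (1 - f 4 * f 0) ^ n3) := by positivity
    have key : 11 ^ J * |(D * x.1 T - PE.ev f x.2.Z) * PE.ev f x.2.q|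
        ≤ f 2 ^ 2 * ((eb J n2 Cz.L2 x.2 : ℕ) * (1 - f 4 * f 0) ^ n2)
        + f 3 ^ 2 * ((eb J n3 Cz.L3 x.2 : ℕ) * (1 - f 4 * f 0) ^ n3) := by
      by_cases hnz : x.2.nz = true
      swap
      · have hz : x.2.L2.wm.isEmpty = true ∧ x.2.L3.wm.isEmpty = true := by
          unfold Cz.nz at hnz
          rw [Bool.not_eq_true, Bool.not_eq_false', Bool.and_eq_true] at hnz
          exact hnz
        have q0 : PE.ev f x.2.q = 0 := by
          rw [Cz.q, PE.ev_add, PE.ev_mul, PE.ev_mul, wm_nil hf hz.1, wm_nil hf hz.2, mul_zero,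
            mul_zero, add_zero]
        rw [q0, mul_zero, abs_zero, mul_zero]
        linarith
      replace h0 := h0 hnz
      rcases hl x List.mem_cons_self with h2 | ⟨h2, h3⟩
      · have h4 : D * x.1 T - PE.ev f x.2.Z = 0 := by
          rw [h2] at h0
          simp only [Nat.cast_zero, zero_mul] at h0
          exact abs_nonpos_iff.1 h0
        rw [h4, zero_mul, abs_zero, mul_zero]
        linarith
      · have k2 := WG.le_bd hf h2
        have k3 := WG.le_bd hf h3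
        rw [hT] at k2 k3
        rw [abs_mul]
        have e1 : |PE.ev f x.2.q| ≤ f 2 ^ 2 * |PE.ev f x.2.L2.pe|
            + f 3 ^ 2 * |PE.ev f x.2.L3.pe| := by
          rw [Cz.q, PE.ev_add, PE.ev_mul, PE.ev_mul, PE.ev_pow, PE.ev_pow, PE.ev_v, PE.ev_v]
          refine (abs_add_le _ _).trans ?_
          rw [abs_mul, abs_mul, abs_of_nonneg (sq_nonneg (f 2)), abs_of_nonneg (sq_nonneg (f 3))]
        rw [hT, eb_eq, eb_eq]
        have hE : (0 : ℝ) ≤ x.2.E := Nat.cast_nonneg _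
        calc 11 ^ J * (|D * x.1 T - PE.ev f x.2.Z| * |PE.ev f x.2.q|)
            ≤ 11 ^ J * ((x.2.E * (1 - T) ^ x.2.h) * (f 2 ^ 2 * |PE.ev f x.2.L2.pe|
              + f 3 ^ 2 * |PE.ev f x.2.L3.pe|)) :=
              mul_le_mul_of_nonneg_left (mul_le_mul h0 e1 (abs_nonneg _) ((abs_nonneg _).trans h0))
                (by positivity)
          _ = x.2.E * (f 2 ^ 2 * (11 ^ J * (|PE.ev f x.2.L2.pe| * (1 - T) ^ x.2.h))
              + f 3 ^ 2 * (11 ^ J * (|PE.ev f x.2.L3.pe| * (1 - T) ^ x.2.h))) := by ring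
          _ ≤ x.2.E * (f 2 ^ 2 * (WG.bd x.2.h n2 J x.2.L2 * (1 - T * f 0) ^ n2)
              + f 3 ^ 2 * (WG.bd x.2.h n3 J x.2.L3 * (1 - T * f 0) ^ n3)) := by gcongr
          _ = _ := by
            push_cast
            ring
    have k0 : -|(D * x.1 T - PE.ev f x.2.Z) * PE.ev f x.2.q|
        ≤ (D * x.1 T - PE.ev f x.2.Z) * PE.ev f x.2.q := neg_abs_le _
    have k1 : 11 ^ J * -|(D * x.1 T - PE.ev f x.2.Z) * PE.ev f x.2.q|
        ≤ 11 ^ J * ((D * x.1 T - PE.ev f x.2.Z) * PE.ev f x.2.q) :=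
      mul_le_mul_of_nonneg_left k0 (by positivity)
    simp only [List.map_cons, List.sum_cons, Qz, PE.ev_add, PE.ev_mul]
    push_cast at k1 h1 key ⊢
    linarith

/-- **The total** from the truncated columns. -/
theorem coreZ {J n2 n3 : ℕ} {T : ℝ} {f : ℕ → ℝ} (hf : RgG f) (hT : f 4 = T)
    {l : List ((ℝ → ℝ) × Cz)} {n : ℕ} {b : ℕ → ℝ → ℝ} {Dn : ℝ} (hDn : Dn ≠ 0)
    (hcol : ∀ c ∈ l, Dn * c.1 T = ∑ p ∈ Finset.range n, b p T * PE.ev f (c.2.r.getD p (.c 0)))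
    (hct : ∀ p < n, PE.ev f (Ctz p (l.map fun c => c.2)) = 0)
    (htr : ∀ c ∈ l, PE.ev f c.2.tr = 0) {D : ℝ}
    (hδ : ∀ c ∈ l, c.2.nz = true → |D * c.1 T - PE.ev f c.2.Z| ≤ c.2.E * (1 - T) ^ c.2.h)
    {D2 D3 : ℕ} (herr : errZ J n2 n3 (l.map fun c => c.2) D2 D3 = true) :
    PE.ev f (Qz (l.map fun c => c.2)) - PE.ev f (pW2 n2 n3 D2 D3)
      ≤ D * (l.map fun c => c.1 T * PE.ev f c.2.M).sum := by
  have h1 := sum_plz hcol
  have h2 : (l.map fun c => c.1 T * PE.ev f (pl c.2.M)).sum = 0 := by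
    have h3 : Dn * (l.map fun c => c.1 T * PE.ev f (pl c.2.M)).sum = 0 := by
      rw [h1]
      refine Finset.sum_eq_zero fun p hp => ?_
      rw [hct p (Finset.mem_range.1 hp), mul_zero]
    exact (mul_eq_zero.1 h3).resolve_left hDn
  have h4 : (l.map fun c => c.1 T * PE.ev f c.2.M).sum
      = (l.map fun c => c.1 T * PE.ev f (pl c.2.M)).sum
        + (l.map fun c => c.1 T * PE.ev f c.2.q).sum := by
    clear h1 h2 hcol hct hδ herr
    induction l with
    | nil => simp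
    | cons c l ih =>
      have h5 := ih fun u hu => htr u (List.mem_cons_of_mem _ hu)
      have h6 := htr c List.mem_cons_self
      unfold Cz.tr at h6
      rw [PE.ev_sub, PE.ev_add, sub_eq_zero] at h6
      simp only [List.map_cons, List.sum_cons]
      rw [h5, h6]
      ring
  rw [h4, h2, zero_add]
  unfold errZ at herr
  rw [Bool.and_eq_true, Bool.and_eq_true, decide_eq_true_eq, decide_eq_true_eq] at herr
  obtain ⟨⟨hall, hs2⟩, hs3⟩ := herr
  have hl : ∀ c ∈ l, c.2.E = 0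
      ∨ (WG.ok c.2.h n2 J c.2.L2 = true ∧ WG.ok c.2.h n3 J c.2.L3 = true) := by
    intro c hc
    have := List.all_eq_true.1 hall c.2 (List.mem_map_of_mem hc)
    rw [Bool.or_eq_true, Bool.and_eq_true] at this
    exact this.imp Nat.eq_of_beq_eq_true id
  have h5 := errZ_le hf hT hδ hl
  have hP0 := hf.r.P0
  have c2 : ((((l.map fun c => c.2).map (eb J n2 Cz.L2)).sum : ℕ) : ℝ) ≤ D2 * 11 ^ J := by
    exact_mod_cast hs2
  have c3 : ((((l.map fun c => c.2).map (eb J n3 Cz.L3)).sum : ℕ) : ℝ) ≤ D3 * 11 ^ J := by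
    exact_mod_cast hs3
  have hW : PE.ev f (pW2 n2 n3 D2 D3) = D2 * f 2 ^ 2 * (1 - f 4 * f 0) ^ n2
      + D3 * f 3 ^ 2 * (1 - f 4 * f 0) ^ n3 := by
    simp only [pW2, pP, PE.ev_add, PE.ev_mul, PE.ev_pow, PE.ev_sub, PE.ev_v, PE.ev_c, Int.cast_one,
      Int.ofNat_eq_natCast, Int.cast_natCast]
  have h6 : f 2 ^ 2 * ((((l.map fun c => c.2).map (eb J n2 Cz.L2)).sum : ℕ)
          * (1 - f 4 * f 0) ^ n2)
        + f 3 ^ 2 * ((((l.map fun c => c.2).map (eb J n3 Cz.L3)).sum : ℕ)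
          * (1 - f 4 * f 0) ^ n3)
      ≤ 11 ^ J * PE.ev f (pW2 n2 n3 D2 D3) := by
    rw [hW]
    calc _ ≤ f 2 ^ 2 * (D2 * 11 ^ J * (1 - f 4 * f 0) ^ n2)
          + f 3 ^ 2 * (D3 * 11 ^ J * (1 - f 4 * f 0) ^ n3) := by gcongr
      _ = _ := by ring
  have h7 : 11 ^ J * (PE.ev f (Qz (l.map fun c => c.2)) - PE.ev f (pW2 n2 n3 D2 D3))
      ≤ 11 ^ J * (D * (l.map fun c => c.1 T * PE.ev f c.2.q).sum) := by
    rw [mul_sub]
    linarith
  exact le_of_mul_le_mul_left h7 (by positivity)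

/-! ### Rows -/

/-- a row column: integer combination of powers of `s` -/
structure RL where
  fam : ℕ
  q : ℕ
  i : ℕ
  co : List (ℕ × ℤ)

/-- the row with `s ^ a` -/
def RL.k (c : RL) (a : ℕ) : RK := ⟨c.fam, a, c.q, c.i⟩

/-- the sum over the powers -/
def RL.Ms (c : RL) : List (ℕ × ℤ) → PE
  | [] => .c 0
  | x :: l => .add (.mul (.c x.2) (c.k x.1).M) (c.Ms l)

/-- the polynomial multiplying the coefficient function -/
def RL.M (c : RL) : PE := c.Ms c.co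

/-- the rows -/
def RL.st (c : RL) (z : ℝ → ℝ) : OT.SCert :=
  c.co.map fun x => ((c.k x.1).st, fun T => x.2 * (c.k x.1).psi z T)

theorem RL.eq (c : RL) (hq : c.q ≤ 9) (z : ℝ → ℝ) {T : ℝ} (h0 : 0 < T) (h1 : T < 1) {d : R9}
    (hd : 1 - T * d 0 ≠ 0) :
    2 * √(AT T) * (1 - T * d 0) ^ 10 * (OT.Rs 11 (c.st z) T d + OT.Rs 11 (c.st z) T (sw9 d))
      = z T * PE.ev (vT T (d 0) (d 1) (d 2) (d 3)) c.M := by
  unfold RL.st RL.M
  generalize c.co = l
  induction l with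
  | nil => simp [OT.Rs, RL.Ms]
  | cons x l ih =>
    have h3 := (c.k x.1).eq (show (c.k x.1).q ≤ 9 from hq) z h0 h1 hd
    unfold OT.Rs at ih ⊢
    rw [List.map_cons, List.map_cons, List.sum_cons, List.map_cons, List.sum_cons, RL.Ms,
      PE.ev_add, PE.ev_mul, PE.ev_c, mul_add (z T), ← ih]
    linear_combination (x.2 : ℝ) * h3

/-- the list of rows -/
def lSZ (R : List (RL × (ℝ → ℝ))) : OT.SCert := R.flatMap fun x => x.1.st x.2

lemma Rs_append (l l' : OT.SCert) (T : ℝ) (d : R9) :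
    OT.Rs 11 (l ++ l') T d = OT.Rs 11 l T d + OT.Rs 11 l' T d := by
  unfold OT.Rs
  rw [List.map_append, List.sum_append]

theorem lSZ_eq {R : List (RL × (ℝ → ℝ))} (hR : ∀ x ∈ R, x.1.q ≤ 9) {T : ℝ} (h0 : 0 < T)
    (h1 : T < 1) {d : R9} (hd : 1 - T * d 0 ≠ 0) :
    4 * √(AT T) * (1 - T * d 0) ^ 10 * ((OT.Rs 11 (lSZ R) T d + OT.Rs 11 (lSZ R) T (sw9 d)) / 2)
      = (R.map fun x => x.2 T * PE.ev (vT T (d 0) (d 1) (d 2) (d 3)) x.1.M).sum := by
  induction R with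
  | nil => simp [lSZ, OT.Rs]
  | cons x R ih =>
    have h2 := ih fun u hu => hR u (List.mem_cons_of_mem _ hu)
    have h3 := x.1.eq (hR x List.mem_cons_self) x.2 h0 h1 hd
    unfold lSZ at h2 ⊢
    rw [List.flatMap_cons, Rs_append, Rs_append, List.map_cons, List.sum_cons, ← h2, ← h3]
    ring

end

end Vale.Agent.P224.S11
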