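import Vale.Agent.P224.SP.Left5
import Vale.Agent.P224.S11.Fun11

/-!
Polynomial models at `T = 0` for `m = 11`: on `(0, 1/4]`, with remainder a multiple of `T ^ 24`.
-/

namespace Vale.Agent.P224.S11

open Set Filter Real
open Vale.Agent.P224.SP (qR qD qL qU qL_eq_qU Ap SL wL evq ev ev_cons ev_nil ap_of_evq sqL ev_sqL
  sqrt_encl qU_encl)
open scoped Topology

/-- regular part of `l1` -/
noncomputable def lam1 (T : ℝ) : ℝ := Real.log ((qD (-12 / 11) T + y1 T) / 2)

/-- regular part of `L0` -/
noncomputable def lam0 (T : ℝ) : ℝ := Real.log ((qD (-122 / 121) (T ^ 2) + y12 T) / 2)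

/-- regular part of `L13` -/
noncomputable def lam3 (T : ℝ) : ℝ := Real.log ((qD (10 / 11) T + b13 T) / 2)

lemma lam1_eq (T : ℝ) : lam1 T = qU (-12 / 11) (1 / 11) T := rfl
lemma lam0_eq (T : ℝ) : lam0 T = qU (-122 / 121) (1 / 121) (T ^ 2) := rfl
lemma lam3_eq (T : ℝ) : lam3 T = qU (10 / 11) (-1 / 11) T := rfl

/-- `f1 = y1 (lam1 + log (22 / 5) - log T)` -/
lemma f1_left {T : ℝ} (h0 : 0 < T) (h1 : T < 1) :
    f1 T = y1 T * (lam1 T + Real.log (22 / 5) - Real.log T) := by
  unfold f1 l1
  rw [qL_eq_qU (by norm_num) h0 (qR_1_pos h0 h1) (qD_1_pos h1.le), lam1_eq]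
  have e : (2 : ℝ) / (5 / 11) = 22 / 5 := by norm_num
  rw [e]
  ring

/-- `f2 = y12 (lam0 + log (121 / 30) - 2 log T)` -/
lemma f2_left {T : ℝ} (h0 : 0 < T) (h1 : T < 1) :
    f2 T = y12 T * (lam0 T + Real.log (121 / 30) - 2 * Real.log T) := by
  unfold f2 L0
  rw [qL_eq_qU (by norm_num) (by positivity) (qR_12_pos h0 h1) (qD_12_pos h0 h1.le), lam0_eq,
    Real.log_pow]
  have e : (2 : ℝ) / (60 / 121) = 121 / 30 := by norm_num
  rw [e]
  push_cast
  ring

/-- `f3 = b13 (lam3 + log (11 / 3) - log T)` -/
lemma f3_left {T : ℝ} (h0 : 0 < T) (h1 : T ≤ 1) :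
    f3 T = b13 T * (lam3 T + Real.log (11 / 3) - Real.log T) := by
  have h3 : 0 < qR (10 / 11) (-1 / 11) T := by
    first
      | exact qR_3_pos h0 h1
      | exact qR_3_pos h0
  unfold f3 L13
  rw [qL_eq_qU (by norm_num) h0 h3 (qD_3_pos h0), lam3_eq]
  have e : (2 : ℝ) / (6 / 11) = 11 / 3 := by norm_num
  rw [e]
  ring

/-- Taylor coefficients at `0` (times `dY1`) -/
def cY1 : List ℤ :=
  [469463331375801891420389244928, -256070908023164668047485042688,
  -48498278034690278039296409600, -26453606200740151657798041600,
  -16934316090625324356696473600, -11969710243723333084830105600, -9023657649836121416829337600,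
  -7112760570315463391836569600, -5791784502675290198626201600, -4834182240594781187124633600,
  -4114037245654005906330265600, -3556419736196681188633497600, -3114261754165877095536729600,
  -2756670802188281309774361600, -2462621695015698366332793600, -2217361605856265209870425600,
  -2010266121498784475881407600, -1833510353565701602009389600, -1681217465573369444745646600,
  -1548897139298355778777203600, -1433065763679489556035741850, -1330983723781948710365255100,
  -1240470027026649095806502725, -1159769140305282579093962850]

/-- common denominator -/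
def dY1 : ℤ := 469463331375801891420389244928

/-- remainder constant -/
def eY1 : ℤ := 2347316656879009457101946224

/-- Taylor coefficients at `0` (times `dY12`) -/
def cY12 : List ℤ :=
  [81402749386839761113321, 0, -41037749690886160561261, 0, -10007851164286016665800, 0,
  -5045280339020223277800, 0, -3158683165778681989800, 0, -2212672977040424401800, 0,
  -1660167238151318113800, 0, -1304747963271986725800, 0, -1060293696987529837800, 0,
  -883691684999043049800, 0, -751211753276937961800, 0, -648824108616062173800, 0]

/-- common denominator -/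
def dY12 : ℤ := 81402749386839761113321

/-- remainder constant -/
def eY12 : ℤ := 651221995094718088906

/-- Taylor coefficients at `0` (times `dB13`) -/
def cB13 : List ℤ :=
  [895430243255237372246531, 407013746934198805566605, -133204498996646881821798,
  60547499543930400828090, -37429363354429702330092, 26020413027143643331080,
  -19442525398253834195286, 15239227909253707195650, -12360936830599547030610,
  10287935654045336065350, -8736373530982276316082, 7539330336162635855790,
  -6592856417241797361384, 5829173366044986399420, -5202390203540799161706,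
  4680440956791198324990, -4240312564663375830828, 3865104924694652568600,
  -3542156570932163188290, 3261813773723650713150, -3016600953839646164244,
  2800648631713232531880, -2609290857951098951058, 2438776707880438439190]

/-- common denominator -/
def dB13 : ℤ := 895430243255237372246531

/-- remainder constant -/
def eB13 : ℤ := 2686290729765712116739

/-- Taylor coefficients at `0` (times `dLa1`) -/
def cLa1 : List ℤ :=
  [0, -15580252853016499711993836669637754880, -5724562601297729060846220291495690240,
  -3154679296685159032593793375257231360, -2063308044173543543987162747349073920,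
  -1482975949022776353127642301542957056, -1131605813873851832455501779197460480,
  -900004160338180643776151323966832640, -737890876179477313374778777518197760,
  -619212931519096937892654330317291520, -529258476957882810649890246294755328,
  -459155910691370110449679053796270080, -403270353512710049552477826117623040,
  -357868776821741384946262749817436160, -320390291669111590429797221818725120,
  -289025710353292485748188368437834752, -262464407185785724874711694374867430,
  -239736103013456741058043862646901440, -220108745511646141529544054090761560,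
  -203020725142891014552580362169914720, -188034762050070561431288232661000089,
  -174805844925180081779418175029386280, -163058502581441781983423481328248465,
  -152570408142005668877718556835576460]

/-- common denominator -/
def dLa1 : ℤ := 28563796897196916138655367227669217280

/-- remainder constant -/
def eLa1 : ℤ := 228510375177575329109242937821353738

/-- Taylor coefficients at `0` (times `dLa0x`) -/
def cLa0x : List ℤ :=
  [0, -1137566421431364370758154920, -425450766340777854691489860, -236225743457311076786310840,
  -154985781389860961898303330, -111574898185337831209004424, -85223615193758311402259820,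
  -67827072718222619449431960, -55637010449648505745702065, -46706083319871802568837480,
  -39932668624562651254698612, -34651590573175268106105720]

/-- common denominator -/
def dLa0x : ℤ := 2256484213003198178061258120

/-- remainder constant -/
def eLa0x : ℤ := 45129684260063963561225162

/-- Taylor coefficients at `0` (times `dLa3`) -/
def cLa3 : List ℤ :=
  [0, 198113159853827154947838295868400, -77444235215586978752336788384920,
  43115536166535386338510262737200, -28362481299884871807145444987020,
  20445938429009823859448375456400, -15631016903978280296694980177400,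
  12448005093546983360843216202000, -10215490602385304029693008058950,
  8578700218698807865767076978000, -7336640009417475104880679451304,
  6367809939572683371933696733200, -5594892660729398186258207769660,
  4966589512166590362820096623600, -4447665978166118832933928565160,
  4013204536117794212884498009200, -3645138637034359552511570621475,
  3330083387995904318881039938000, -3057933722940842072658316785800,
  2820932967544636319196623802000, -2613038631363328534425598983444,
  2429481120646590144803065940400, -2266450692128465906882906516520,
  2120871490595399705442413425200]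

/-- common denominator -/
def dLa3 : ℤ := 435848951678419740885244250910480

/-- remainder constant -/
def eLa3 : ℤ := 2179244758392098704426221254552

set_option maxRecDepth 20000 in
theorem ap_y1 : Ap SL wL y1 dY1 cY1 eY1 := by
  intro T hT
  have hA : ((0 : ℤ) : ℝ) ≤ (4 : ℤ) * T := by
    push_cast
    linarith [hT.1]
  have hB : ((4 : ℤ) : ℝ) * T ≤ (1 : ℤ) := by
    push_cast
    linarith [hT.2]
  have h := sqrt_encl (y := y1 T) (R := qR (-12 / 11) (1 / 11) T) (RL := [11, -12, 1]) (dR := 11) (by norm_num)
    (T := T) (by unfold qR evq; simp only [ev_cons, ev_nil]; push_cast; ring) rfl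
    (PL := cY1 ++ [-eY1]) (QL := cY1 ++ [eY1]) (dP := dY1) (A := 0) (B := 1) (d := 4)
    (by decide +kernel) hA hB (by decide +kernel) (by decide +kernel) (by decide +kernel)
  exact ap_of_evq (by decide +kernel) h.1 h.2 rfl

set_option maxRecDepth 20000 in
theorem ap_y12 : Ap SL wL y12 dY12 cY12 eY12 := by
  intro T hT
  have hA : ((0 : ℤ) : ℝ) ≤ (4 : ℤ) * T := by
    push_cast
    linarith [hT.1]
  have hB : ((4 : ℤ) : ℝ) * T ≤ (1 : ℤ) := by
    push_cast
    linarith [hT.2]
  have h := sqrt_encl (y := y12 T) (R := qR (-122 / 121) (1 / 121) (T ^ 2)) (RL := [121, 0, -122, 0, 1]) (dR := 121) (by norm_num)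
    (T := T) (by unfold qR evq; simp only [ev_cons, ev_nil]; push_cast; ring) rfl
    (PL := cY12 ++ [-eY12]) (QL := cY12 ++ [eY12]) (dP := dY12) (A := 0) (B := 1) (d := 4)
    (by decide +kernel) hA hB (by decide +kernel) (by decide +kernel) (by decide +kernel)
  exact ap_of_evq (by decide +kernel) h.1 h.2 rfl

set_option maxRecDepth 20000 in
theorem ap_b13 : Ap SL wL b13 dB13 cB13 eB13 := by
  intro T hT
  have hA : ((0 : ℤ) : ℝ) ≤ (4 : ℤ) * T := by
    push_cast
    linarith [hT.1]
  have hB : ((4 : ℤ) : ℝ) * T ≤ (1 : ℤ) := by
    push_cast
    linarith [hT.2]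
  have h := sqrt_encl (y := b13 T) (R := qR (10 / 11) (-1 / 11) T) (RL := [11, 10, -1]) (dR := 11) (by norm_num)
    (T := T) (by unfold qR evq; simp only [ev_cons, ev_nil]; push_cast; ring) rfl
    (PL := cB13 ++ [-eB13]) (QL := cB13 ++ [eB13]) (dP := dB13) (A := 0) (B := 1) (d := 4)
    (by decide +kernel) hA hB (by decide +kernel) (by decide +kernel) (by decide +kernel)
  exact ap_of_evq (by decide +kernel) h.1 h.2 rfl

set_option maxRecDepth 20000 in
theorem ap_lam1 : Ap SL wL lam1 dLa1 cLa1 eLa1 := by
  intro T hT
  rw [lam1_eq]
  have h := qU_encl (b := -12 / 11) (c := 1 / 11) (RL := [11, -12, 1]) (dR := 11) (by norm_num)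
    (fun T => by unfold qR evq; simp only [ev_cons, ev_nil]; push_cast; ring) (e := 1 / 4)
    (fun x hx => by rw [qR_1]; exact mul_pos (by linarith [hx.2]) (by linarith [hx.1, hx.2])) (fun x hx => by unfold qD; linarith [hx.2])
    (VL := cLa1 ++ [eLa1]) (WL := cLa1 ++ [-eLa1]) (dV := dLa1) (B := 1) (d := 4)
    (by decide +kernel) (by norm_num) (by norm_num) (by decide +kernel) (by decide +kernel)
    (by decide +kernel) (by decide +kernel) (by decide +kernel) (T := T) ⟨hT.1.le, hT.2⟩
  exact ap_of_evq (by decide +kernel) h.1 h.2 rfl

set_option maxRecDepth 20000 in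
theorem ap_lam3 : Ap SL wL lam3 dLa3 cLa3 eLa3 := by
  intro T hT
  rw [lam3_eq]
  have h := qU_encl (b := 10 / 11) (c := -1 / 11) (RL := [11, 10, -1]) (dR := 11) (by norm_num)
    (fun T => by unfold qR evq; simp only [ev_cons, ev_nil]; push_cast; ring) (e := 1 / 4)
    (fun x hx => by rw [qR_3]; exact mul_pos (by linarith [hx.1]) (by linarith [hx.1, hx.2])) (fun x hx => by unfold qD; linarith [hx.1])
    (VL := cLa3 ++ [eLa3]) (WL := cLa3 ++ [-eLa3]) (dV := dLa3) (B := 1) (d := 4)
    (by decide +kernel) (by norm_num) (by norm_num) (by decide +kernel) (by decide +kernel)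
    (by decide +kernel) (by decide +kernel) (by decide +kernel) (T := T) ⟨hT.1.le, hT.2⟩
  exact ap_of_evq (by decide +kernel) h.1 h.2 rfl

/-- Taylor coefficients at `0` (times `dLa0`) -/
def cLa0 : List ℤ := sqL cLa0x

/-- common denominator -/
def dLa0 : ℤ := dLa0x

/-- remainder constant -/
def eLa0 : ℤ := eLa0x

set_option maxRecDepth 20000 in
theorem ap_lam0 : Ap SL wL lam0 dLa0 cLa0 eLa0 := by
  intro T hT
  rw [lam0_eq]
  have hT2 : T ^ 2 ∈ Icc (0 : ℝ) (1 / 16) := by
    refine ⟨sq_nonneg T, ?_⟩
    have h1 := hT.1
    have h2 := hT.2
    nlinarith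
  have h := qU_encl (b := -122 / 121) (c := 1 / 121) (RL := [121, -122, 1]) (dR := 121) (by norm_num)
    (fun T => by unfold qR evq; simp only [ev_cons, ev_nil]; push_cast; ring) (e := 1 / 16)
    (fun x hx => by unfold qR; nlinarith [hx.1, hx.2]) (fun x hx => by unfold qD; linarith [hx.2])
    (VL := cLa0x ++ [eLa0x]) (WL := cLa0x ++ [-eLa0x]) (dV := dLa0x) (B := 1) (d := 16)
    (by decide +kernel) (by norm_num) (by norm_num) (by decide +kernel) (by decide +kernel)
    (by decide +kernel) (by decide +kernel) (by decide +kernel) (T := T ^ 2) hT2
  have h3 := ap_of_evq (l := cLa0x) (E := eLa0x) (D := dLa0x) (w := (T ^ 2) ^ 12)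
    (by decide +kernel) h.1 h.2 rfl
  unfold cLa0 dLa0 eLa0 SP.wL
  rw [ev_sqL]
  rw [← pow_mul] at h3
  exact h3

end Vale.Agent.P224.S11
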