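import Vale.Agent.P224.S11.SosTl

/-!
Lists of multipliers and blocks for the static certificates.
-/

namespace Vale.Agent.P224.S11

open Vale.Agent.P224.UE Vale.Agent.P224.POS Vale.Agent.P224.PO
open scoped RealInnerProductSpace

set_option linter.unusedSectionVars false

noncomputable section

lemma good_nil : ∀ x ∈ ([] : List (PE × List BlkX)), GoodX x.2 := by
  intro x hx
  exact absurd hx List.not_mem_nil

lemma good_cons {m : PE} {B : List BlkX} {L : List (PE × List BlkX)} (h : GoodX B)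
    (hL : ∀ x ∈ L, GoodX x.2) : ∀ x ∈ (m, B) :: L, GoodX x.2 := by
  intro x hx
  rcases List.mem_cons.1 hx with rfl | hx
  · exact h
  · exact hL x hx

lemma mult_nil {f : ℕ → ℝ} : ∀ x ∈ ([] : List (PE × List BlkX)), 0 ≤ PE.ev f x.1 := by
  intro x hx
  exact absurd hx List.not_mem_nil

lemma mult_cons {f : ℕ → ℝ} {m : PE} {B : List BlkX} {L : List (PE × List BlkX)}
    (h : 0 ≤ PE.ev f m) (hL : ∀ x ∈ L, 0 ≤ PE.ev f x.1) :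
    ∀ x ∈ (m, B) :: L, 0 ≤ PE.ev f x.1 := by
  intro x hx
  rcases List.mem_cons.1 hx with rfl | hx
  · exact h
  · exact hL x hx

section

variable {E : Type*} [NormedAddCommGroup E] [InnerProductSpace ℝ E] {x N y w : E}
  (hx : ‖x‖ = 1) (hN : ‖N‖ = 1) (hy : ‖y‖ = 1) (hw : ‖w‖ = 1) (T : ℝ)

lemma inner_unit_le {x y : E} (hx : ‖x‖ = 1) (hy : ‖y‖ = 1) : ⟪x, y⟫ ≤ 1 := by
  have := real_inner_le_norm x y
  rwa [hx, hy, one_mul] at this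

lemma neg_le_inner_unit {x y : E} (hx : ‖x‖ = 1) (hy : ‖y‖ = 1) : -1 ≤ ⟪x, y⟫ := by
  have h := inner_unit_le (x := -x) (by rwa [norm_neg]) hy
  rw [inner_neg_left] at h
  linarith

lemma ev_pcM (s t p c : ℝ) : PE.ev (vT T s t p c) pc = c := by
  have e : PE.ev (vT T s t p c) pc
    = s + ((t + p) / (2 * √30) + (c - s - (t + p) / (2 * √30))) := rfl
  rw [e]
  ring

include hx hN hy hw

lemma m1 : 0 ≤ PE.ev (vT T ⟪x, y⟫ ⟪x, w⟫ ⟪N, y⟫ ⟪N, w⟫) (.c 1) := by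
  rw [PE.ev_c]
  norm_num

lemma mms : 0 ≤ PE.ev (vT T ⟪x, y⟫ ⟪x, w⟫ ⟪N, y⟫ ⟪N, w⟫) (.sub (.c 1) (.v 0)) := by
  have h := inner_unit_le hx hy
  have e : PE.ev (vT T ⟪x, y⟫ ⟪x, w⟫ ⟪N, y⟫ ⟪N, w⟫) (.v 0) = ⟪x, y⟫ := rfl
  rw [PE.ev_sub, e, PE.ev_c, Int.cast_one]
  linarith

lemma mps : 0 ≤ PE.ev (vT T ⟪x, y⟫ ⟪x, w⟫ ⟪N, y⟫ ⟪N, w⟫) (.add (.c 1) (.v 0)) := by
  have h := neg_le_inner_unit hx hy
  have e : PE.ev (vT T ⟪x, y⟫ ⟪x, w⟫ ⟪N, y⟫ ⟪N, w⟫) (.v 0) = ⟪x, y⟫ := rfl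
  rw [PE.ev_add, e, PE.ev_c, Int.cast_one]
  linarith

lemma mss : 0 ≤ PE.ev (vT T ⟪x, y⟫ ⟪x, w⟫ ⟪N, y⟫ ⟪N, w⟫)
    (.mul (.sub (.c 1) (.v 0)) (.add (.c 1) (.v 0))) := by
  rw [PE.ev_mul]
  exact mul_nonneg (mms hx hN hy hw T) (mps hx hN hy hw T)

lemma mpc : 0 ≤ PE.ev (vT T ⟪x, y⟫ ⟪x, w⟫ ⟪N, y⟫ ⟪N, w⟫) (.add (.c 1) pc) := by
  have h := neg_le_inner_unit hN hw
  rw [PE.ev_add, ev_pcM, PE.ev_c, Int.cast_one]
  linarith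

lemma mmc : 0 ≤ PE.ev (vT T ⟪x, y⟫ ⟪x, w⟫ ⟪N, y⟫ ⟪N, w⟫) (.sub (.c 1) pc) := by
  have h := inner_unit_le hN hw
  rw [PE.ev_sub, ev_pcM, PE.ev_c, Int.cast_one]
  linarith

end

end

end Vale.Agent.P224.S11
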