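import Vale.Agent.P224.SP.Right5
import Vale.Agent.P224.S11.Fun11

/-!
Models of the scalar functions on `(1/4, 1)`, `m = 11`.
-/

namespace Vale.Agent.P224.S11

open Set Real Vale.Agent.P224.SP

/-- model of `f1` near `1` -/
@[irreducible] def rq1 : List ℤ :=
  [5247890278871460921179788458383175, -60011882068355647505999932149053662,
  1121299113670762755607256459924943106, -17762243809235024102446536815039713045,
  229453521464307030904094493772574933087, -2446460768484236048224579096318072856965,
  21893668935448401547074625524657916916542, -166929569232326375803231988441579607208810,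
  1097923277039423112096612850180456342318035, -6292810526124962683697469157060582435728993,
  31692992411552846970171229145207211140176896, -141221012321126719199617017737431927070862405,
  559896384192256250382949900827612433232659335, -1984361070716735698084444004911657334589870939,
  6311318587921221763928094217546609394451573018,
  -18071372511068464246088165331721951500716103426,
  46705054672913185784914250575542757331002358742,
  -109180340097742924089917578737663646924858972422,
  231226857729446207577119903504441712047634365463,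
  -444188456980919349911973993786810051167874467784,
  774607215507357263104548722218656171262284163746,
  -1226780227959115879196648819859759498986953690989,
  1764604686019341869493223472622950926562280895527,
  -2304549788393011193862361381965796397874727011531,
  2730730192686497765470293846441470961579851889399,
  -2932554232625829658173453475344733985080769198445,
  2849831062408704076687335435976765720783898805753,
  -2501038142561659561048944725018743783987283009169,
  1977134542107169807745555112137055342183694214220,
  -1403399937957111647195236917948517482101971678401,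
  890943083957170278414412550916948249642242971398,
  -503441667734161489614194143086898171167318202467,
  251715272478951485023710609049436822171196756924,
  -110549961994642562962799805850997388981668554383,
  42260989999463468069258695440237281520747005295,
  -13900952099755133960694858502510975016622819867,
  3876152848392709597209414532723185891006705876, -898261394066144067675165198340655575634604300,
  168324614016263727629935785260039310618806535, -24503221736902117506530241568489792131903816,
  2599576242667180934921911380291563072333493, -178781075912165066695556567486360511792885,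
  5981596746217246850860468662984434129139]

/-- denominator -/
@[irreducible] def rD1 : ℤ := 819000000000000000000000000000000

/-- error -/
@[irreducible] def rE1 : ℤ := 8190000000000000001

/-- model of `f2` near `1` -/
@[irreducible] def rq2 : List ℤ :=
  [60356251692237169180624441718847925732, -813059992555319394429113634582295215217,
  14932343079337978553078285106031389401454, -235661372888370676762061871269092286835944,
  3040407828993366950175909802593143967310034, -32396951137842839341657860295365068133833256,
  289816651434480290326365877575322102334385514, -2209180902010667019089576170633503784534421119,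
  14527606150969420246846819601824167722814661335,
  -83254934345886761957013281523608996266716716031,
  419261139457519127825308867581692603436693630678,
  -1868037746409752756538970636455514508769516045579,
  7405688439989079042802975596395136074147021532855,
  -26245495529295272785145776057466453579190432898755,
  83470731214194518850305514782498282629963007120967,
  -238994671410186904494066841086163289333841246600927,
  617655439707975624712279137912711027278017926474447,
  -1443823260744293505070832714711462092898340521081013,
  3057712417518388506397496860421291350519086717135309,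
  -5873753226707129040399160287896053240535155349387583,
  10242857444169841768214579938388261664387861673306875,
  -16221777803226875193760936075236424114841149034715057,
  23333075873801594838700755603073452474889739726818791,
  -30472229435847873101747030042565872789166023455974072,
  36106973749941116130833055085085444756543602146175731,
  -38775109518890191715996264426283568451518991855241864,
  37680897205406995351042864842131467047945432465857382,
  -33068764937642095314722222125005690551708468968031082,
  26141456502149452743953874490531855648138373896139058,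
  -18555438660723556543399775713476401718317114932249431,
  11779754326535534942374804330025313639076457676564231,
  -6656289218732125383349239656979672345948015783130440,
  3328047967677782509643833453819444100790998288729202,
  -1461624452018956064070550755282155091064597389489597,
  558745770229544620883203941318859462918369391252064,
  -183787800106006311946195291450558868362669881676308,
  51247269789447837195154699631741178550912991044122,
  -11876006383979143999129574014655469132283010562039,
  2225426697929100411858685600708122347961731191971,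
  -323956691735490551073362059194465143451582680346,
  34368812994296789243712027768222150276615161769,
  -2363642716822175171220409183354930719706575492, 79081667545452851355524581415282219311541631]

/-- denominator -/
@[irreducible] def rD2 : ℤ := 5373459000000000000000000000000000000

/-- error -/
@[irreducible] def rE2 : ℤ := 53734590000000000000001

/-- model of `f3` near `1` -/
@[irreducible] def rq3 : List ℤ :=
  [96336426196091042750497410738908, -1545693834122050014303843845304982,
  28781968619496550712296510751058741, -456017940669931970687544013835002694,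
  5890665190935120698263242141799130875, -62804522728390911121324740283815290592,
  562028806465797829303954059720201642105, -4285130335362351778919431559844933857784,
  28183555546710358684196952664196007561948, -161533662952286661594494819772106450305576,
  813537055312418624606366798839939174664706, -3625015997455797281899504436945582855243856,
  14371939791308177308153445052657274334446764, -50936137253129275964104374387733830619285974,
  162003111826980825331446884973563027903858724, -463866089209040920892618441796053611191212586,
  1198847212004672160070302760173678649983528498,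
  -2802483428186536037146308936191332489781042682,
  5935204725326986267168070285428670935777791783,
  -11401543379890985158513992757104382708584939498,
  19882773958461279889606699602501267687445128762,
  -31489180790820945894103833980168625478354057470,
  45294061220672334638016029796883357856305724403,
  -59153335900719858438651709705396610548180043898,
  70092461547389531967062640508255029075525230814,
  -75272787761117614570049404757470636535219096376,
  73149361642807771297646889410331787197842382420,
  -64196486362970905078511092029865357760291054655,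
  50748910614827530182689370066058818533051950308,
  -36022308723792117844602625270416721094668466283,
  22868604976694517655725960171153309741971077482,
  -12922261259304716101369806488068197410725812792,
  6460983010175438868774176552892870557042160657,
  -2837574841190643099895469026590286849086200262,
  1084746128626666419117365973136334499570276483, -356806471337270406005622802472305209582989595,
  99492150936526648385365149458078019009516225, -23056343088017031006028193455737574859088927,
  4320510829252215069544474296062486825561544, -628941791332366948856266364580396642809634,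
  66725160454203213047748656175060466767921, -4588898262120551829033498303804593726268,
  153533743647456544086986217369714632313]

/-- denominator -/
@[irreducible] def rD3 : ℤ := 21000000000000000000000000000000

/-- error -/
@[irreducible] def rE3 : ℤ := 210000000000000001

/-- model of `f4` near `1` -/
@[irreducible] def rq4 : List ℤ :=
  [7416198487334846653634243221952, 3370999303970316702441807524741,
  -1103236001601937645783318729139, 501469563766846575450037018523,
  -309990043703491492458275911607, 215452842353579011110820752078,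
  -160793789347890370980913731674, 125418299799107968925645793533,
  -100159561381988514056627070644, 80082234595364173301874329453, -62377879741029437776150753376,
  45872936160911760669204272628, -30830305804213219634367267780, 18348334782204295667598043684,
  -9380871028123547301837555694, 3994962647224553407592408857, -1368482791056493024263991200,
  360480049949959333256708956, -68293461419244682953473493, 8261924829314474984847643,
  -478524031002718356437441]

/-- denominator -/
@[irreducible] def rD4 : ℤ := 11000000000000000000000000000000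

/-- error -/
@[irreducible] def rE4 : ℤ := 11000000000000001

/-- `f3c = b13 (L13 - L13 1)` -/
noncomputable def f3c (T : ℝ) : ℝ := b13 T * (L13 T - L13 1)

/-- `f4 = sqrt (5/11) b13` -/
noncomputable def f4 (T : ℝ) : ℝ := √(5 / 11) * b13 T

/-- radicands -/
def r1L : List ℤ := [11, -12, 1]
/-- radicand of `y1 y2` (times 121) -/
def r12L : List ℤ := [121, 0, -122, 0, 1]
/-- radicand of `b13` (times 11) -/
def r3L : List ℤ := [11, 10, -1]

lemma ev_r1L (T : ℝ) : ev r1L T = (1 - T) * (11 - T) := by
  simp only [r1L, ev_cons, ev_nil]; push_cast; ring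
lemma ev_r12L (T : ℝ) : ev r12L T = (1 - T ^ 2) * (121 - T ^ 2) := by
  simp only [r12L, ev_cons, ev_nil]; push_cast; ring
lemma ev_r3L (T : ℝ) : ev r3L T = (1 + T) * (11 - T) := by
  simp only [r3L, ev_cons, ev_nil]; push_cast; ring

lemma y1_one : y1 1 = 0 := by unfold y1; rw [qR_1]; norm_num
lemma y12_one : y12 1 = 0 := by unfold y12; rw [qR_12]; norm_num

lemma continuous_y1 : Continuous y1 := (continuous_qR _ _).sqrt
lemma continuous_b13 : Continuous b13 := (continuous_qR _ _).sqrt
lemma continuous_y12 : Continuous y12 := ((continuous_qR _ _).comp (continuous_pow 2)).sqrt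

lemma continuousOn_l1 : ContinuousOn l1 (Ioc 0 1) :=
  continuousOn_qL (by norm_num) (fun _ hT => hT.1) fun _ hT => qD_1_pos hT.2

lemma continuousOn_L13 : ContinuousOn L13 (Ioi 0) :=
  continuousOn_qL (by norm_num) (fun _ hT => hT) fun _ hT => qD_3_pos hT

lemma continuousOn_L0 : ContinuousOn L0 (Ioc 0 1) := by
  have h : ContinuousOn (qL (-122 / 121) (1 / 121) (60 / 121)) (Ioc 0 1) := by
    refine continuousOn_qL (by norm_num) (fun _ hT => hT.1) fun T hT => ?_
    unfold qD; linarith [hT.2]
  refine h.comp (continuous_pow 2).continuousOn fun T hT => ?_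
  exact ⟨pow_pos hT.1 2, pow_le_one₀ hT.1.le hT.2⟩

lemma c1u : chkN 4 1 4 4 (smulL (-1) (cL r1L (upL rq1 rE1 7) (2 * 1 * 11 * rD1))) = true := by
  decide +kernel

lemma c1l : chkN 4 1 4 4 (cL r1L (loL rq1 rE1 7) (2 * 1 * 11 * rD1)) = true := by
  decide +kernel

lemma c2u : chkN 4 1 4 4 (smulL (-1) (cL r12L (upL rq2 rE2 7) (2 * 2 * 121 * rD2))) = true := by
  decide +kernel

lemma c2l : chkN 4 1 4 4 (cL r12L (loL rq2 rE2 7) (2 * 2 * 121 * rD2)) = true := by
  decide +kernel

lemma c3u : chkN 4 1 4 4 (smulL (-1) (cG r3L (upL rq3 rE3 8) (2 * 1 * rD3))) = true := by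
  decide +kernel

lemma c3l : chkN 4 1 4 4 (cG r3L (loL rq3 rE3 8) (2 * 1 * rD3)) = true := by
  decide +kernel

lemma c4a : chkN 1 1 4 4 (addL (smulL 121 (mulL (upL rq4 rE4 8) (upL rq4 rE4 8)))
      (smulL (-5 * (rD4 * rD4)) r3L)) = true := by
  decide +kernel

lemma c4b : chkN 1 1 4 4 (addL (smulL (-121) (mulL (loL rq4 rE4 8) (loL rq4 rE4 8)))
      (smulL (5 * (rD4 * rD4)) r3L)) = true := by
  decide +kernel

lemma c4c : chkN 1 1 4 4 (upL rq4 rE4 8) = true := by
  decide +kernel

lemma ap_f1 : Ap SR wR f1 (11 * rD1) (mulL r1L rq1) (11 * rE1) := by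
  intro T hT
  have hT0 : (0 : ℝ) < T := by linarith [hT.1]
  have hy := y1_pos hT0 hT.2
  have hk : (11 : ℝ) ≠ 0 := by norm_num
  have hyd : ∀ T ∈ Ioo (1 / 4 : ℝ) 1,
      HasDerivAt y1 (ev (derL r1L) T / (2 * ((11 : ℤ) : ℝ) * y1 T)) T := by
    intro x hx
    have hx0 : (0 : ℝ) < x := by linarith [hx.1]
    refine (hasDerivAt_y1 hx0 hx.2).congr_deriv ?_
    have := (y1_pos hx0 hx.2).ne'
    simp only [r1L, derL, derAux, ev_cons, ev_nil]
    push_cast
    field_simp
    ring
  have hL : ∀ T ∈ Ioo (1 / 4 : ℝ) 1, HasDerivAt l1 (-((1 : ℤ) : ℝ) / (T * y1 T)) T := by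
    intro x hx
    have hx0 : (0 : ℝ) < x := by linarith [hx.1]
    simpa using hasDerivAt_l1 hx0 hx.2
  have hy2 : ∀ T ∈ Ioo (1 / 4 : ℝ) 1, (((11 : ℤ) : ℝ)) * y1 T ^ 2 = ev r1L T := by
    intro x hx
    have hx0 : (0 : ℝ) < x := by linarith [hx.1]
    rw [y1_sq hx0 hx.2, ev_r1L]; push_cast; ring
  have hyc : ContinuousOn y1 (Ioc (1 / 4) 1) := continuous_y1.continuousOn
  have hLc : ContinuousOn l1 (Ioc (1 / 4) 1) :=
    continuousOn_l1.mono (Ioc_subset_Ioc_left (by norm_num))
  have hyp : ∀ T ∈ Ioo (1 / 4 : ℝ) 1, 0 < y1 T := fun x hx =>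
    y1_pos (by linarith [hx.1]) hx.2
  have hTc : T ∈ Ioc (1 / 4 : ℝ) 1 := ⟨hT.1, hT.2.le⟩
  have hu : (rD1 : ℝ) * l1 T ≤ y1 T * ev (upL rq1 rE1 7) T := by
    refine le_of_cL (k0 := 11) (n := 1) (a := 1 / 4) (by norm_num) (by norm_num) hyp hy2 hyd hL
      hyc hLc y1_one l1_one (fun x hx => ?_) hTc
    have h1 := c1u
    have h2 := chk_of_mem h1 (by norm_num) hx
    rw [ev_smulL] at h2; push_cast at h2 ⊢; linarith
  have hl : y1 T * ev (loL rq1 rE1 7) T ≤ (rD1 : ℝ) * l1 T := by
    refine ge_of_cL (k0 := 11) (n := 1) (a := 1 / 4) (by norm_num) (by norm_num) hyp hy2 hyd hL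
      hyc hLc y1_one l1_one (fun x hx => ?_) hTc
    have h1 := c1l
    exact chk_of_mem h1 (by norm_num) hx
  rw [ev_upL] at hu
  rw [ev_loL] at hl
  have hq := hy2 T hT
  rw [ev_mulL, ← hq]
  unfold f1 wR
  push_cast at hq ⊢
  rw [ev_r1L] at hq
  have hE : (0 : ℝ) ≤ rE1 := by
    have : (0 : ℤ) ≤ rE1 := by decide +kernel
    exact_mod_cast this
  have h1T : 0 < 1 - T := by linarith [hT.2]
  have hw : 0 ≤ (rE1 : ℝ) * (1 - T) ^ 7 := mul_nonneg hE (pow_nonneg h1T.le 7)
  have hb : 11 * y1 T ^ 2 * ((rE1 : ℝ) * (1 - T) ^ 7) ≤ 11 * rE1 * (1 - T) ^ 8 := by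
    have e1 : 11 * (rE1 : ℝ) * (1 - T) ^ 8 = (11 * (1 - T)) * (rE1 * (1 - T) ^ 7) := by ring
    rw [e1, hq]
    refine mul_le_mul_of_nonneg_right ?_ hw
    nlinarith [hT.2]
  rw [abs_le]
  constructor
  · nlinarith [mul_le_mul_of_nonneg_left hl (mul_nonneg (by norm_num : (0 : ℝ) ≤ 11) hy.le)]
  · nlinarith [mul_le_mul_of_nonneg_left hu (mul_nonneg (by norm_num : (0 : ℝ) ≤ 11) hy.le)]

lemma ap_f2 : Ap SR wR f2 (121 * rD2) (mulL r12L rq2) (242 * rE2) := by
  intro T hT
  have hT0 : (0 : ℝ) < T := by linarith [hT.1]
  have hy := y12_pos hT0 hT.2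
  have hyd : ∀ T ∈ Ioo (1 / 4 : ℝ) 1,
      HasDerivAt y12 (ev (derL r12L) T / (2 * ((121 : ℤ) : ℝ) * y12 T)) T := by
    intro x hx
    have hx0 : (0 : ℝ) < x := by linarith [hx.1]
    refine (hasDerivAt_y12 hx0 hx.2).congr_deriv ?_
    have := (y12_pos hx0 hx.2).ne'
    simp only [r12L, derL, derAux, ev_cons, ev_nil]
    push_cast
    field_simp
    ring
  have hL : ∀ T ∈ Ioo (1 / 4 : ℝ) 1, HasDerivAt L0 (-((2 : ℤ) : ℝ) / (T * y12 T)) T := by
    intro x hx
    have hx0 : (0 : ℝ) < x := by linarith [hx.1]
    have := hasDerivAt_L0 hx0 hx.2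
    push_cast
    exact this
  have hy2 : ∀ T ∈ Ioo (1 / 4 : ℝ) 1, (((121 : ℤ) : ℝ)) * y12 T ^ 2 = ev r12L T := by
    intro x hx
    have hx0 : (0 : ℝ) < x := by linarith [hx.1]
    rw [y12_sq hx0 hx.2, ev_r12L]; push_cast; ring
  have hyc : ContinuousOn y12 (Ioc (1 / 4) 1) := continuous_y12.continuousOn
  have hLc : ContinuousOn L0 (Ioc (1 / 4) 1) :=
    continuousOn_L0.mono (Ioc_subset_Ioc_left (by norm_num))
  have hyp : ∀ T ∈ Ioo (1 / 4 : ℝ) 1, 0 < y12 T := fun x hx =>
    y12_pos (by linarith [hx.1]) hx.2
  have hTc : T ∈ Ioc (1 / 4 : ℝ) 1 := ⟨hT.1, hT.2.le⟩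
  have hu : (rD2 : ℝ) * L0 T ≤ y12 T * ev (upL rq2 rE2 7) T := by
    refine le_of_cL (k0 := 121) (n := 2) (a := 1 / 4) (by norm_num) (by norm_num) hyp hy2 hyd hL
      hyc hLc y12_one L0_one (fun x hx => ?_) hTc
    have h1 := c2u
    have h2 := chk_of_mem h1 (by norm_num) hx
    rw [ev_smulL] at h2; push_cast at h2 ⊢; linarith
  have hl : y12 T * ev (loL rq2 rE2 7) T ≤ (rD2 : ℝ) * L0 T := by
    refine ge_of_cL (k0 := 121) (n := 2) (a := 1 / 4) (by norm_num) (by norm_num) hyp hy2 hyd hL
      hyc hLc y12_one L0_one (fun x hx => ?_) hTc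
    have h1 := c2l
    exact chk_of_mem h1 (by norm_num) hx
  rw [ev_upL] at hu
  rw [ev_loL] at hl
  have hq := hy2 T hT
  rw [ev_mulL, ← hq]
  unfold f2 wR
  push_cast at hq ⊢
  rw [ev_r12L] at hq
  have hE : (0 : ℝ) ≤ rE2 := by
    have : (0 : ℤ) ≤ rE2 := by decide +kernel
    exact_mod_cast this
  have h1T : 0 < 1 - T := by linarith [hT.2]
  have hw : 0 ≤ (rE2 : ℝ) * (1 - T) ^ 7 := mul_nonneg hE (pow_nonneg h1T.le 7)
  have hb : 121 * y12 T ^ 2 * ((rE2 : ℝ) * (1 - T) ^ 7) ≤ 242 * rE2 * (1 - T) ^ 8 := by
    have e1 : 242 * (rE2 : ℝ) * (1 - T) ^ 8 = (242 * (1 - T)) * (rE2 * (1 - T) ^ 7) := by ring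
    rw [e1, hq]
    refine mul_le_mul_of_nonneg_right ?_ hw
    have e2 : (1 - T ^ 2) * (121 - T ^ 2) = (1 - T) * ((1 + T) * (121 - T ^ 2)) := by ring
    rw [e2, mul_comm (242 : ℝ)]
    refine mul_le_mul_of_nonneg_left ?_ h1T.le
    nlinarith [hT.2, hT0]
  rw [abs_le]
  constructor
  · nlinarith [mul_le_mul_of_nonneg_left hl (mul_nonneg (by norm_num : (0 : ℝ) ≤ 121) hy.le)]
  · nlinarith [mul_le_mul_of_nonneg_left hu (mul_nonneg (by norm_num : (0 : ℝ) ≤ 121) hy.le)]

lemma ap_f3 : Ap SR wR f3c rD3 rq3 rE3 := by
  intro T hT
  have hT0 : (0 : ℝ) < T := by linarith [hT.1]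
  have hyd : ∀ T ∈ Ioo (1 / 4 : ℝ) 1,
      HasDerivAt b13 (ev (derL r3L) T / (2 * ((11 : ℤ) : ℝ) * b13 T)) T := by
    intro x hx
    have hx0 : (0 : ℝ) < x := by linarith [hx.1]
    refine (hasDerivAt_b13 hx0 hx.2.le).congr_deriv ?_
    have := (b13_pos hx0 hx.2.le).ne'
    simp only [r3L, derL, derAux, ev_cons, ev_nil]
    push_cast
    field_simp
    ring
  have hL : ∀ T ∈ Ioo (1 / 4 : ℝ) 1,
      HasDerivAt (fun T => L13 T - L13 1) (-((1 : ℤ) : ℝ) / (T * b13 T)) T := by
    intro x hx
    have hx0 : (0 : ℝ) < x := by linarith [hx.1]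
    have := (hasDerivAt_L13 hx0 hx.2.le).sub_const (L13 1)
    push_cast
    exact this
  have hy2 : ∀ T ∈ Ioo (1 / 4 : ℝ) 1, (((11 : ℤ) : ℝ)) * b13 T ^ 2 = ev r3L T := by
    intro x hx
    have hx0 : (0 : ℝ) < x := by linarith [hx.1]
    rw [b13_sq hx0 hx.2.le, ev_r3L]; push_cast; ring
  have hyc : ContinuousOn b13 (Ioc (1 / 4) 1) := continuous_b13.continuousOn
  have hLc : ContinuousOn (fun T => L13 T - L13 1) (Ioc (1 / 4) 1) :=
    (continuousOn_L13.mono fun x hx => (by linarith [hx.1] : (0 : ℝ) < x)).sub
      continuousOn_const
  have hyp : ∀ T ∈ Ioc (1 / 4 : ℝ) 1, 0 < b13 T := fun x hx =>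
    b13_pos (by linarith [hx.1]) hx.2
  have hTc : T ∈ Ioc (1 / 4 : ℝ) 1 := ⟨hT.1, hT.2.le⟩
  have hz : ∀ E : ℤ, ev rq3 1 + E * (1 - 1) ^ 8 = 0 := by
    intro E
    have h1 : rq3.foldr (fun a s => a + s) 0 = 0 := by decide +kernel
    have h2 : ∀ l : List ℤ, ev l 1 = ((l.foldr (fun a s => a + s) 0 : ℤ) : ℝ) := by
      intro l
      induction l with
      | nil => simp
      | cons a l ih => simp only [ev_cons, List.foldr_cons, ih]; push_cast; ring
    rw [h2, h1]; norm_num
  have hu : (rD3 : ℝ) * (b13 T * (L13 T - L13 1)) ≤ ev (upL rq3 rE3 8) T := by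
    refine le_of_cG (L := fun T => L13 T - L13 1) (k0 := 11) (n := 1) (a := 1 / 4) (by norm_num)
      (by norm_num) hyp hy2 hyd hL hyc hLc (by simp) ?_ (fun x hx => ?_) hTc
    · rw [ev_upL, hz]
    have h1 := c3u
    have h2 := chk_of_mem h1 (by norm_num) hx
    rw [ev_smulL] at h2; push_cast at h2 ⊢; linarith
  have hl : ev (loL rq3 rE3 8) T ≤ (rD3 : ℝ) * (b13 T * (L13 T - L13 1)) := by
    refine ge_of_cG (L := fun T => L13 T - L13 1) (k0 := 11) (n := 1) (a := 1 / 4) (by norm_num)
      (by norm_num) hyp hy2 hyd hL hyc hLc (by simp) ?_ (fun x hx => ?_) hTc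
    · have := hz (-rE3)
      rw [ev_loL]
      push_cast at this
      linarith
    have h1 := c3l
    exact chk_of_mem h1 (by norm_num) hx
  rw [ev_upL] at hu
  rw [ev_loL] at hl
  unfold f3c wR
  rw [abs_le]
  constructor <;> linarith

lemma ap_f4 : Ap SR wR f4 rD4 rq4 rE4 := by
  intro T hT
  have hT0 : (0 : ℝ) < T := by linarith [hT.1]
  have hD : (0 : ℝ) < rD4 := by
    have : (0 : ℤ) < rD4 := by decide +kernel
    exact_mod_cast this
  have hf : f4 T ^ 2 = 5 / 121 * ev r3L T := by
    unfold f4
    rw [mul_pow, Real.sq_sqrt (by norm_num), b13_sq hT0 hT.2.le, ev_r3L]; ring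
  have hf0 : 0 ≤ f4 T := mul_nonneg (Real.sqrt_nonneg _) (Real.sqrt_nonneg _)
  have h1 := c4a
  have h2 := c4b
  have h3 := c4c
  have h1' := chk_of_mem h1 (by norm_num) hT
  have h2' := chk_of_mem h2 (by norm_num) hT
  have h3' := chk_of_mem h3 (by norm_num) hT
  rw [ev_addL, ev_smulL, ev_smulL, ev_mulL] at h1' h2'
  push_cast at h1' h2'
  have hu : (rD4 : ℝ) * f4 T ≤ ev (upL rq4 rE4 8) T := by
    refine (pow_le_pow_iff_left₀ (mul_nonneg hD.le hf0) h3' two_ne_zero).1 ?_
    rw [mul_pow, hf, sq (ev (upL rq4 rE4 8) T)]
    linarith
  have hl : ev (loL rq4 rE4 8) T ≤ (rD4 : ℝ) * f4 T := by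
    refine le_of_sq (mul_nonneg hD.le hf0) ?_
    rw [mul_pow, hf, sq (ev (loL rq4 rE4 8) T)]
    linarith
  rw [ev_upL] at hu
  rw [ev_loL] at hl
  unfold wR
  rw [abs_le]
  constructor <;> linarith

end Vale.Agent.P224.S11
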