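import Vale.Agent.P224.S11.Small11

/-!
Smallness test on `(0, 1/4]` and the final theorem on `(0, 1)`.
-/

namespace Vale.Agent.P224.S11

open Set Real Vale.Agent.P224.SP

lemma kap_nonneg : (0 : ℝ) ≤ kap := by
  have : (0 : ℤ) ≤ kap := by decide +kernel
  exact_mod_cast this
lemma DP_pos : (0 : ℝ) < DP := by
  have : (0 : ℤ) < DP := by decide +kernel
  exact_mod_cast this
lemma P18_pos : (0 : ℝ) < P18 := by unfold P18; norm_num
lemma EYZ_nonneg : (0 : ℤ) ≤ EY := by decide +kernel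

section

variable {n0 n1 n2 n3 nt ns : List ℤ} {b a : ℕ} {E : ℤ}

lemma e1_nonneg : (0 : ℝ) ≤ e1 n1 nt b := by
  have : 0 ≤ e1 n1 nt b :=
    add_nonneg (mul_nonneg (sAbs_nonneg _) EYZ_nonneg) (sQ_nonneg _ _)
  exact_mod_cast this
lemma e3_nonneg : (0 : ℝ) ≤ e3 n3 ns b := by
  have : 0 ≤ e3 n3 ns b :=
    add_nonneg (mul_nonneg (sAbs_nonneg _) EYZ_nonneg) (sQ_nonneg _ _)
  exact_mod_cast this
lemma eB_nonneg : (0 : ℝ) ≤ eB n1 n2 n3 := by
  have : 0 ≤ eB n1 n2 n3 :=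
    add_nonneg (mul_nonneg (by
      have := sAbs_nonneg n1; have := sAbs_nonneg n2; have := sAbs_nonneg n3; positivity)
      EYZ_nonneg) (sQ_nonneg _ _)
  exact_mod_cast this

variable (n0 n1 n2 n3 nt ns b a E)

/-- truncated lists -/
def mA' : List ℤ := (lA0 n0 n1 n2 n3).take 24
/-- truncated list -/
def m1' : List ℤ := (l10 n1 nt b).take 24
/-- truncated list -/
def m3' : List ℤ := (l30 n3 ns b).take 24
/-- truncated list -/
def mB' : List ℤ := (lB0 n1 n2 n3).take 24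

/-- main list with logarithm list `wl` -/
def mainL (wl : List ℤ) : List ℤ :=
  addL (smulL P18 (mA' n0 n1 n2 n3)) (smulL kap (addL (smulL nA (m1' n1 nt b))
    (addL (smulL nB (m3' n3 ns b)) (smulL (-1) (mulL wl (mB' n1 n2 n3))))))

/-- coefficient of `T^24` -/
def XL (KW : ℤ) : ℤ := P18 * eA n0 n1 n2 n3 +
  kap * (nA * e1 n1 nt b + nB * e3 n3 ns b + KW * eB n1 n2 n3)

/-- coefficient of `T^a` -/
def ZL (EW : ℤ) : ℤ := kap * (1 * (sQ 4 ((m1' n1 nt b).drop a) + e1 n1 nt b) +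
  6 * (sQ 4 ((m3' n3 ns b).drop a) + e3 n3 ns b) + EW * sQ 4 ((mB' n1 n2 n3).drop a))

/-- allowance on a left piece -/
def WL (X Z : ℤ) : List ℤ :=
  addL (smulL (P18 * DP * E) (powZ b)) (addL [-Z] (shl (24 - a) [-X]))

/-- logarithm list -/
def wlL (k : ℕ) : List ℤ := addL (smulL 2 (lg k)) [-1394593163934585713]

/-- vanishing tests -/
def vanT : Bool := van a (m1' n1 nt b) && van a (m3' n3 ns b) && van (a + 1) (mB' n1 n2 n3)

/-- test on `[A/d, B/d]` with the logarithm piece `k` -/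
def chkLp (k : ℕ) (A B d : ℤ) : Bool :=
  let m := mainL n0 n1 n2 n3 nt ns b (wlL k)
  let W := WL b a E (XL n0 n1 n2 n3 nt ns b (10 ^ 19)) (ZL n1 n2 n3 nt ns b a 25000)
  van a m && chk A B d (addL W (m.drop a)) && chk A B d (addL W (smulL (-1) (m.drop a)))

/-- crude coefficient of `T^a` -/
def ZL0 : ℤ := kap * (1 * (sQ 4 ((m1' n1 nt b).drop a) + e1 n1 nt b) +
  6 * (sQ 4 ((m3' n3 ns b).drop a) + e3 n3 ns b) +
  (4 * 10 ^ 18) * (sQ 32 ((mB' n1 n2 n3).drop (a + 1)) + (eB n1 n2 n3 / 32 ^ (23 - a) + 1)))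

/-- test on `(0, 1/32]` -/
def chkL0 : Bool :=
  let m := addL (smulL P18 (mA' n0 n1 n2 n3)) (smulL kap (addL (smulL nA (m1' n1 nt b))
    (smulL nB (m3' n3 ns b))))
  let W := WL b a E (XL n0 n1 n2 n3 nt ns b 0) (ZL0 n1 n2 n3 nt ns b a)
  van a m && chk 0 1 32 (addL W (m.drop a)) && chk 0 1 32 (addL W (smulL (-1) (m.drop a)))

variable {n0 n1 n2 n3 nt ns b a E}

lemma van_mono {m n : ℕ} {l : List ℤ} (h : van n l = true) (hmn : m ≤ n) : van m l = true := by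
  unfold van at h ⊢
  rw [List.all_eq_true] at h ⊢
  intro x hx
  exact h x ((List.take_subset_take_left l hmn) hx)

/-- closing step -/
lemma close {T P FFv mv X Z C : ℝ} {m : List ℤ} (hT : 0 < T) (ha : a ≤ 24)
    (hP : 0 < P) (hC : C = P * E)
    (hv : van a m = true) (hm : mv = ev m T)
    (hd : |P * FFv - mv| ≤ X * T ^ 24 + Z * T ^ a)
    (h1 : 0 ≤ (C * (1 - T) ^ b - Z - T ^ (24 - a) * X) + ev (m.drop a) T)
    (h2 : 0 ≤ (C * (1 - T) ^ b - Z - T ^ (24 - a) * X) - ev (m.drop a) T) :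
    |FFv| ≤ E * (T ^ a * (1 - T) ^ b) := by
  rw [hm, ev_van hv] at hd
  have h24 : T ^ 24 = T ^ a * T ^ (24 - a) := by rw [← pow_add]; congr 1; omega
  have hTa : 0 < T ^ a := pow_pos hT a
  have k1 := mul_nonneg hTa.le h1
  have k2 := mul_nonneg hTa.le h2
  rw [h24] at hd
  rw [abs_le] at hd ⊢
  rw [hC] at k1 k2
  constructor
  · refine le_of_mul_le_mul_left ?_ hP
    nlinarith [hd.1]
  · refine le_of_mul_le_mul_left ?_ hP
    nlinarith [hd.2]

lemma ev_WL (X Z : ℤ) (T : ℝ) : ev (WL b a E X Z) T =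
    (P18 * DP) * E * (1 - T) ^ b - Z - T ^ (24 - a) * X := by
  unfold WL
  simp only [ev_addL, ev_smulL, ev_powZ, ev_shl, ev_cons, ev_nil]
  push_cast
  ring

lemma wlL_bd {k : ℕ} (hk : k ≤ 5) {T : ℝ} (h1 : 1 / 2 ≤ 2 ^ k * T) (h2 : 2 ^ k * T ≤ 1) :
    |(P18 : ℝ) * om T - ev (wlL k) T| ≤ 25000 := by
  have h := lg_bd k h1 h2
  have h3 := logE_bd
  have hk' : (k : ℝ) ≤ 5 := by exact_mod_cast hk
  unfold wlL om P18
  rw [ev_addL, ev_smulL, ev_cons, ev_nil]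
  push_cast
  rw [abs_le] at h h3 ⊢
  constructor <;> nlinarith [h.1, h.2, h3.1, h3.2]

lemma om_bd {T : ℝ} (h1 : 1 / 32 ≤ T) (h2 : T ≤ 1 / 4) : |(P18 : ℝ) * om T| ≤ 10 ^ 19 := by
  have h3 := logE_bd
  have h4 := log_two_bd
  have h5 : Real.log (1 / 32) ≤ Real.log T := Real.log_le_log (by norm_num) h1
  have h6 : Real.log T ≤ 0 := Real.log_nonpos (by linarith) (by linarith)
  have h7 : Real.log (1 / 32) = -(5 * Real.log 2) := by
    rw [one_div, Real.log_inv, show (32 : ℝ) = 2 ^ 5 by norm_num, Real.log_pow]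
    push_cast; ring
  rw [h7] at h5
  unfold om P18
  push_cast
  rw [abs_le] at h3 h4 ⊢
  constructor <;> nlinarith [h3.1, h3.2, h4.1, h4.2]

lemma om_bd0 {T : ℝ} (h0 : 0 < T) (h2 : T ≤ 1 / 32) : |(P18 : ℝ) * (T * om T)| ≤ 4 * 10 ^ 18 := by
  have h3 := logE_bd
  have h4 := Real.abs_log_mul_self_lt T h0 (by linarith)
  rw [abs_lt] at h4
  unfold om P18
  push_cast
  rw [abs_le] at h3 ⊢
  have h5 : 0 ≤ T * (Real.log (121 / 30) / 2) :=
    mul_nonneg h0.le (div_nonneg (Real.log_nonneg (by norm_num)) (by norm_num))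
  have h6 : T * (Real.log (121 / 30) / 2) ≤ 1 / 32 * (Real.log (121 / 30) / 2) :=
    mul_le_mul_of_nonneg_right h2
      (div_nonneg (Real.log_nonneg (by norm_num)) (by norm_num))
  constructor <;> nlinarith [h3.1, h3.2, h4.1, h4.2]

theorem smallLp {k : ℕ} (hk : k ≤ 5) (ha : a ≤ 23) {A B d : ℤ}
    (hv : vanT n1 n2 n3 nt ns b a = true)
    (h : chkLp n0 n1 n2 n3 nt ns b a E k A B d = true) {T : ℝ}
    (hT : T ∈ SL) (hT2 : 1 / 32 ≤ T) (hA : (A : ℝ) ≤ d * T) (hB : d * T ≤ B)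
    (hk1 : 1 / 2 ≤ 2 ^ k * T) (hk2 : 2 ^ k * T ≤ 1) :
    |FF n0 n1 n2 n3 nt ns b T| ≤ E * (T ^ a * (1 - T) ^ b) := by
  simp only [vanT, Bool.and_eq_true] at hv
  obtain ⟨⟨v1, v3⟩, vB⟩ := hv
  simp only [chkLp, Bool.and_eq_true] at h
  obtain ⟨⟨hv, c1⟩, c2⟩ := h
  have k1 := nonneg_of_chk c1 hA hB
  have k2 := nonneg_of_chk c2 hA hB
  rw [ev_addL, ev_WL] at k1 k2
  rw [ev_smulL] at k2
  have h0 : 0 < T := hT.1
  have h14 : T ≤ 1 / 4 := hT.2
  have hq : ((4 : ℕ) : ℝ) * T ≤ 1 := by push_cast; linarith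
  have hw : (0 : ℝ) ≤ T ^ 24 := by positivity
  have hwa : T ^ 24 ≤ T ^ a := pow_le_pow_of_le_one h0.le (by linarith) (by omega)
  have hmain := left_core (P := P18) (DP := DP) (DY := DY) (κ := kap)
    (wa := T ^ a) (w := T ^ 24) (EW := 25000) (KW := 10 ^ 19) (EA := 1) (E3 := 6)
    (nA := nA) (n3 := nB) (cA := cA) (c3 := cB) (om := om T) (wl := ev (wlL k) T)
    hwa kap_nonneg P18_pos.le (by exact_mod_cast DP_eq)
    (ap_A n0 n1 n2 n3 T hT) (ap_U1 n1 nt b T hT) (ap_U3 n3 ns b T hT) (ap_H n1 n2 n3 T hT)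
    e1_nonneg e3_nonneg (by norm_num) (by norm_num) cA_bd cB_bd (wlL_bd hk hk1 hk2)
    (om_bd hT2 h14)
    (abs_ev_le_sQ_van (q := 4) (by norm_num) v1 h0.le hq)
    (abs_ev_le_sQ_van (q := 4) (by norm_num) v3 h0.le hq)
    (abs_ev_le_sQ_van (q := 4) (by norm_num) (van_mono vB (Nat.le_succ a)) h0.le hq)
  rw [← FF_left n0 n1 n2 n3 nt ns b h0 (by linarith)] at hmain
  have hnA : |((nA : ℤ) : ℝ)| = nA := abs_of_nonneg (by unfold nA; norm_num)
  have hnB : |((nB : ℤ) : ℝ)| = nB := abs_of_nonneg (by unfold nB; norm_num)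
  rw [hnA, hnB] at hmain
  refine close (m := mainL n0 n1 n2 n3 nt ns b (wlL k)) (P := P18 * DP)
    (X := XL n0 n1 n2 n3 nt ns b (10 ^ 19)) (Z := ZL n1 n2 n3 nt ns b a 25000)
    (C := P18 * DP * E) h0 (by omega) (mul_pos P18_pos DP_pos) rfl hv rfl ?_ k1
    (by push_cast at k2 ⊢; linarith)
  refine le_trans (le_of_eq ?_) (hmain.trans (le_of_eq ?_))
  · congr 1
    unfold mainL
    simp only [ev_addL, ev_smulL, ev_mulL, mA', m1', m3', mB']
    push_cast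
    ring
  · unfold XL ZL m1' m3' mB'
    push_cast
    ring

theorem smallL0 (ha : a ≤ 23)
    (hv : vanT n1 n2 n3 nt ns b a = true)
    (h : chkL0 n0 n1 n2 n3 nt ns b a E = true) {T : ℝ}
    (h0 : 0 < T) (hT2 : T ≤ 1 / 32) :
    |FF n0 n1 n2 n3 nt ns b T| ≤ E * (T ^ a * (1 - T) ^ b) := by
  have hT : T ∈ SL := ⟨h0, by linarith⟩
  simp only [vanT, Bool.and_eq_true] at hv
  obtain ⟨⟨v1, v3⟩, vB⟩ := hv
  simp only [chkL0, Bool.and_eq_true] at h
  obtain ⟨⟨hv, c1⟩, c2⟩ := h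
  have hA : ((0 : ℤ) : ℝ) ≤ ((32 : ℤ) : ℝ) * T := by push_cast; linarith
  have hB : ((32 : ℤ) : ℝ) * T ≤ ((1 : ℤ) : ℝ) := by push_cast; linarith
  have k1 := nonneg_of_chk c1 hA hB
  have k2 := nonneg_of_chk c2 hA hB
  rw [ev_addL, ev_WL] at k1 k2
  rw [ev_smulL] at k2
  have hq : ((4 : ℕ) : ℝ) * T ≤ 1 := by push_cast; linarith
  have hq32 : ((32 : ℕ) : ℝ) * T ≤ 1 := by push_cast; linarith
  have hw : (0 : ℝ) ≤ T ^ 24 := by positivity
  have hwa : T ^ 24 ≤ T ^ a := pow_le_pow_of_le_one h0.le (by linarith) (by omega)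
  have hHB : |(DY : ℝ) * (ev n1 T * y1 T + 2 * (ev n2 T * y12 T) + ev n3 T * b13 T) -
      ev (mB' n1 n2 n3) T| ≤ ((eB n1 n2 n3 / 32 ^ (23 - a) + 1 : ℤ) : ℝ) * (T * T ^ a) := by
    refine (ap_H n1 n2 n3 T hT).trans ?_
    unfold wL
    have e24 : T ^ 24 = (T * T ^ a) * T ^ (23 - a) := by
      rw [← pow_succ', ← pow_add]; congr 1; omega
    have hx : T ^ (23 - a) ≤ (1 / 32) ^ (23 - a) := pow_le_pow_left₀ h0.le hT2 _
    have hz : (eB n1 n2 n3 : ℝ) * (1 / 32) ^ (23 - a) ≤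
        ((eB n1 n2 n3 / 32 ^ (23 - a) + 1 : ℤ) : ℝ) := by
      rw [one_div, inv_pow, ← div_eq_mul_inv, div_le_iff₀ (by positivity)]
      have h5 : eB n1 n2 n3 < (eB n1 n2 n3 / 32 ^ (23 - a) + 1) * 32 ^ (23 - a) :=
        Int.lt_ediv_add_one_mul_self _ (by positivity)
      have : ((eB n1 n2 n3 : ℤ) : ℝ) ≤
          (((eB n1 n2 n3 / 32 ^ (23 - a) + 1) * 32 ^ (23 - a) : ℤ) : ℝ) := by
        exact_mod_cast h5.le
      push_cast at this ⊢
      exact this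
    rw [e24]
    calc (eB n1 n2 n3 : ℝ) * (T * T ^ a * T ^ (23 - a))
        ≤ (eB n1 n2 n3 : ℝ) * (T * T ^ a * (1 / 32) ^ (23 - a)) :=
          mul_le_mul_of_nonneg_left (mul_le_mul_of_nonneg_left hx (by positivity)) eB_nonneg
      _ = ((eB n1 n2 n3 : ℝ) * (1 / 32) ^ (23 - a)) * (T * T ^ a) := by ring
      _ ≤ _ := mul_le_mul_of_nonneg_right hz (by positivity)
  have hmain := left_core0 (P := P18) (DP := DP) (DY := DY) (κ := kap) (T := T)
    (wa := T ^ a) (w := T ^ 24) (KT := 4 * 10 ^ 18) (EA := 1) (E3 := 6)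
    (nA := nA) (n3 := nB) (cA := cA) (c3 := cB) (om := om T) (w1 := T * T ^ a)
    (sB := sQ 32 ((mB' n1 n2 n3).drop (a + 1)))
    h0 hwa rfl kap_nonneg P18_pos.le (by exact_mod_cast DP_eq)
    (ap_A n0 n1 n2 n3 T hT) (ap_U1 n1 nt b T hT) (ap_U3 n3 ns b T hT) hHB
    e1_nonneg e3_nonneg (by norm_num) (by norm_num) cA_bd cB_bd
    (om_bd0 h0 hT2)
    (abs_ev_le_sQ_van (q := 4) (by norm_num) v1 h0.le hq)
    (abs_ev_le_sQ_van (q := 4) (by norm_num) v3 h0.le hq)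
    (by
      have := abs_ev_le_sQ_van (q := 32) (by norm_num) vB h0.le hq32
      rw [pow_succ'] at this
      exact this)
  rw [← FF_left n0 n1 n2 n3 nt ns b h0 (by linarith)] at hmain
  have hnA : |((nA : ℤ) : ℝ)| = nA := abs_of_nonneg (by unfold nA; norm_num)
  have hnB : |((nB : ℤ) : ℝ)| = nB := abs_of_nonneg (by unfold nB; norm_num)
  rw [hnA, hnB] at hmain
  refine close (m := addL (smulL P18 (mA' n0 n1 n2 n3)) (smulL kap (addL (smulL nA (m1' n1 nt b))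
    (smulL nB (m3' n3 ns b))))) (P := P18 * DP)
    (X := XL n0 n1 n2 n3 nt ns b 0) (Z := ZL0 n1 n2 n3 nt ns b a)
    (C := P18 * DP * E) h0 (by omega) (mul_pos P18_pos DP_pos) rfl hv rfl ?_ k1
    (by push_cast at k2 ⊢; linarith)
  refine le_trans (le_of_eq ?_) (hmain.trans (le_of_eq ?_))
  · congr 1
    simp only [ev_addL, ev_smulL, mA', m1', m3']
  · unfold XL ZL0 m1' m3' mB'
    push_cast
    ring

/-- **smallness theorem** -/
theorem small4 {k : ℕ} (hk : k ≠ 0) (ha : a ≤ 23)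
    (hv : vanT n1 n2 n3 nt ns b a = true)
    (h0 : chkL0 n0 n1 n2 n3 nt ns b a E = true)
    (h4 : chkLp n0 n1 n2 n3 nt ns b a E 4 1 2 32 = true)
    (h3 : chkLp n0 n1 n2 n3 nt ns b a E 3 1 2 16 = true)
    (h2 : chkLp n0 n1 n2 n3 nt ns b a E 2 1 2 8 = true)
    (r1 : chkN k 1 4 4 (addL (rW n1 n2 n3 nt ns E a b) (rM n0 n1 n2 n3 nt ns b)) = true)
    (r2 : chkN k 1 4 4 (addL (rW n1 n2 n3 nt ns E a b)
      (smulL (-1) (rM n0 n1 n2 n3 nt ns b))) = true) {T : ℝ} (hT0 : 0 < T) (hT1 : T < 1) :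
    |FF n0 n1 n2 n3 nt ns b T| ≤ E * (T ^ a * (1 - T) ^ b) := by
  rcases le_or_gt T (1 / 4) with hT | hT
  · have hSL : T ∈ SL := ⟨hT0, hT⟩
    rcases le_or_gt T (1 / 32) with hT' | hT'
    · exact smallL0 ha hv h0 hT0 hT'
    · rcases le_or_gt T (1 / 16) with hT4 | hT4
      · exact smallLp (k := 4) (by norm_num) ha hv h4 hSL hT'.le (by push_cast; linarith)
          (by push_cast; linarith) (by linarith) (by linarith)
      · rcases le_or_gt T (1 / 8) with hT3 | hT3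
        · exact smallLp (k := 3) (by norm_num) ha hv h3 hSL hT'.le (by push_cast; linarith)
            (by push_cast; linarith) (by linarith) (by linarith)
        · exact smallLp (k := 2) (by norm_num) ha hv h2 hSL hT'.le (by push_cast; linarith)
            (by push_cast; linarith) (by linarith) (by linarith)
  · exact smallR hk r1 r2 ⟨hT, hT1⟩

end

end Vale.Agent.P224.S11
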