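import Vale.Agent.P224.S11.Mults

/-!
The table of inner products with `r = 1 - s` in the place of `s`.
-/

namespace Vale.Agent.P224.S11

open Vale.Agent.P224.UE Vale.Agent.P224.POS Vale.Agent.P224.PO
open scoped RealInnerProductSpace

noncomputable section

/-- `s = 1 - r` -/
def sbR (i : ℕ) : PE :=
  match i with
  | 0 => .sub (.c 1) (.v 0)
  | n + 1 => .v (n + 1)

/-- the values of the variables, `r = 1 - s` in the place of `s` -/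
def vR (T s t p c : ℝ) (i : ℕ) : ℝ :=
  ([1 - s, (t + p) / (2 * √30), (p - t) / (2 * √30), c - s - (t + p) / (2 * √30), T] :
    List ℝ).getD i 0

lemma vR_ge (T s t p c : ℝ) {i : ℕ} (h : 5 ≤ i) : vR T s t p c i = 0 := by
  unfold vR
  rw [List.getD_eq_default]
  simpa using h

lemma ev_sbR (T s t p c : ℝ) (i : ℕ) : PE.ev (vR T s t p c) (sbR i) = vT T s t p c i := by
  match i with
  | 0 =>
    have e1 : vR T s t p c 0 = 1 - s := rfl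
    have e2 : vT T s t p c 0 = s := rfl
    rw [show sbR 0 = .sub (.c 1) (.v 0) from rfl, PE.ev_sub, PE.ev_c, PE.ev_v, e1, e2]
    push_cast
    ring
  | 1 => rfl
  | 2 => rfl
  | 3 => rfl
  | 4 => rfl
  | n + 5 =>
    rw [show sbR (n + 5) = PE.v (n + 5) from rfl, PE.ev_v, vR_ge _ _ _ _ _ (by omega),
      vT_ge _ _ _ _ _ (by omega)]

lemma ev_sb_sbR (T s t p c : ℝ) (P : PE) :
    PE.ev (vR T s t p c) (PE.sb sbR P) = PE.ev (vT T s t p c) P := by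
  rw [PE.ev_sb]
  congr 1
  funext i
  exact ev_sbR T s t p c i

/-- `1 - c = r - τ - v` -/
def pcR : PE := .sub (.v 0) (.add (.v 1) (.v 3))

/-- the table of inner products -/
def tabR : List (List PE) :=
  [[.c 1, .c 0, .c 0, .c 0, .c 0],
   [.c 0, .sub (.c 4) (.mul (.c 2) (.v 0)), .c 0, .mul (.c 60) (.v 1), .mul (.c 60) (.v 2)],
   [.c 0, .c 0, .mul (.c 2) (.v 0), .mul (.c (-60)) (.v 2), .mul (.c (-60)) (.v 1)],
   [.c 0, .mul (.c 60) (.v 1), .mul (.c (-60)) (.v 2), .mul (.c 60) (.sub (.c 2) pcR), .c 0],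
   [.c 0, .mul (.c 60) (.v 2), .mul (.c (-60)) (.v 1), .c 0, .mul (.c 60) pcR]]

lemma grT_tabR_ge {k l : ℕ} (h : 5 ≤ k ∨ 5 ≤ l) : grT tabR k l = PE.c 0 := by
  unfold grT
  by_cases hk : 5 ≤ k
  · rw [lk_ge _ _ k (by simpa [tabR] using hk)]
    rfl
  · have hl : 5 ≤ l := h.resolve_left hk
    have hk' : k < 5 := not_le.1 hk
    have h6 : ∀ i < 5, (lk (fun _ => ([] : List PE)) tabR i).length = 5 := by
      intro i hi
      interval_cases i <;> rfl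
    rw [lk_ge _ _ l (by rw [h6 k hk']; exact hl)]

lemma sym_tabR {R : Type*} [CommRing R] (f : ℕ → R) (k l : ℕ) :
    PE.ev f (grT tabR k l) = PE.ev f (grT tabR l k) := by
  by_cases h : 5 ≤ k ∨ 5 ≤ l
  · rw [grT_tabR_ge h, grT_tabR_ge h.symm]
  · have hk : k < 5 := by omega
    have hl : l < 5 := by omega
    interval_cases k <;> interval_cases l <;> rfl

lemma ev_tabR (T s t p c : ℝ) (k l : ℕ) :
    PE.ev (vR T s t p c) (grT tabR k l) = PE.ev (vT T s t p c) (grT tabT k l) := by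
  by_cases h : 5 ≤ k ∨ 5 ≤ l
  · rw [grT_tabR_ge h, grT_tabT_ge h, PE.ev_c, PE.ev_c]
  · have hk : k < 5 := by omega
    have hl : l < 5 := by omega
    have v0 : vT T s t p c 0 = s := rfl
    have v1 : vT T s t p c 1 = (t + p) / (2 * √30) := rfl
    have v2 : vT T s t p c 2 = (p - t) / (2 * √30) := rfl
    have v3 : vT T s t p c 3 = c - s - (t + p) / (2 * √30) := rfl
    have w0 : vR T s t p c 0 = 1 - s := rfl
    have w1 : vR T s t p c 1 = (t + p) / (2 * √30) := rfl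
    have w2 : vR T s t p c 2 = (p - t) / (2 * √30) := rfl
    have w3 : vR T s t p c 3 = c - s - (t + p) / (2 * √30) := rfl
    interval_cases k <;> interval_cases l <;>
      simp only [grT, tabT, tabR, pc, pcR, lk_zero, lk_succ, PE.ev_c, PE.ev_v, PE.ev_sub,
        PE.ev_add, PE.ev_mul, v0, v1, v2, v3, w0, w1, w2, w3, Int.cast_ofNat, Int.cast_zero,
        Int.cast_one, Int.cast_neg]
    all_goals ring1

theorem isGramT_vR {E : Type*} [NormedAddCommGroup E] [InnerProductSpace ℝ E] {x N y w : E}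
    (hx : ‖x‖ = 1) (hN : ‖N‖ = 1) (hy : ‖y‖ = 1) (hw : ‖w‖ = 1) (hxN : ⟪x, N⟫ = 0)
    (hyw : ⟪y, w⟫ = 0) (T : ℝ) :
    IsGramT tabR (vR T ⟪x, y⟫ ⟪x, w⟫ ⟪N, y⟫ ⟪N, w⟫) (vecT x N y w) := by
  have h := isGramT_vT hx hN hy hw hxN hyw T
  refine ⟨h.1, fun k l => ?_⟩
  rw [ev_tabR]
  exact h.2 k l

/-- **Nonnegativity from a verified identity** in the variables `r, τ, u, v`. -/
theorem pos_of_chkXR {Q : PE} {L : List (PE × List BlkX)} {Ms : List ℕ} (k : Int) (hk : 0 ≤ k)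
    (h : chkX Ms (PE.sb sbR Q) k tabR L = true) (hMs : 4 ≤ Ms.length)
    (hG : ∀ x ∈ L, GoodX x.2) {E : Type*} [NormedAddCommGroup E] [InnerProductSpace ℝ E]
    {x N y w : E} (hx : ‖x‖ = 1) (hN : ‖N‖ = 1) (hy : ‖y‖ = 1) (hw : ‖w‖ = 1)
    (hxN : ⟪x, N⟫ = 0) (hyw : ⟪y, w⟫ = 0) (T : ℝ)
    (hm : ∀ z ∈ L, 0 ≤ PE.ev (vR T ⟪x, y⟫ ⟪x, w⟫ ⟪N, y⟫ ⟪N, w⟫) z.1) :
    0 ≤ PE.ev (vT T ⟪x, y⟫ ⟪x, w⟫ ⟪N, y⟫ ⟪N, w⟫) Q := by
  rw [← ev_sb_sbR]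
  exact pos_of_chkX k hk h sym_tabR hG (fun i hi => vR_ge _ _ _ _ _ (by omega))
    (isGramT_vR hx hN hy hw hxN hyw T) hm

section

variable {E : Type*} [NormedAddCommGroup E] [InnerProductSpace ℝ E] {x N y w : E} (T : ℝ)

lemma rm1 : 0 ≤ PE.ev (vR T ⟪x, y⟫ ⟪x, w⟫ ⟪N, y⟫ ⟪N, w⟫) (.c 1) := by
  rw [PE.ev_c]
  norm_num

lemma rmms (hx : ‖x‖ = 1) (hy : ‖y‖ = 1) :
    0 ≤ PE.ev (vR T ⟪x, y⟫ ⟪x, w⟫ ⟪N, y⟫ ⟪N, w⟫) (.v 0) := by
  have h := inner_unit_le hx hy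
  have e : PE.ev (vR T ⟪x, y⟫ ⟪x, w⟫ ⟪N, y⟫ ⟪N, w⟫) (.v 0) = 1 - ⟪x, y⟫ := rfl
  rw [e]
  linarith

lemma rmps (hx : ‖x‖ = 1) (hy : ‖y‖ = 1) :
    0 ≤ PE.ev (vR T ⟪x, y⟫ ⟪x, w⟫ ⟪N, y⟫ ⟪N, w⟫) (.sub (.c 2) (.v 0)) := by
  have h := neg_le_inner_unit hx hy
  have e : PE.ev (vR T ⟪x, y⟫ ⟪x, w⟫ ⟪N, y⟫ ⟪N, w⟫) (.v 0) = 1 - ⟪x, y⟫ := rfl
  rw [PE.ev_sub, e, PE.ev_c]
  push_cast
  linarith

end

end

end Vale.Agent.P224.S11
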