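import Vale.Agent.P224.S11.Wt

/-!
Weighted polynomial expressions with two indices: sharper bounds of the error terms.
-/

namespace Vale.Agent.P224.S11

open Vale.Agent.P224.UE Vale.Agent.P224.POS Vale.Agent.P224.PO Vale.Agent.P224.SO Set
open scoped RealInnerProductSpace

noncomputable section

/-- weighted polynomial expressions: constants, `T`, `1 - T`, `1 - T s`, `1 - s`, `s`, `τ`, `u`, `v`
and `c = s + τ + v` -/
inductive WG where
  | c (n : Int) : WG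
  | T : WG
  | a : WG
  | P : WG
  | w : WG
  | s : WG
  | t : WG
  | u : WG
  | v : WG
  | d : WG
  | add (x y : WG) : WG
  | sub (x y : WG) : WG
  | mul (x y : WG) : WG
  | pow (x : WG) (n : Nat) : WG

/-- the expression without weights -/
def WG.pe (e : WG) : PE :=
  WG.rec (motive := fun _ => PE) (fun n => .c n) (.v 4) (.sub (.c 1) (.v 4)) pP
    (.sub (.c 1) (.v 0)) (.v 0) (.v 1) (.v 2) (.v 3) pc (fun _ _ x y => .add x y)
    (fun _ _ x y => .sub x y) (fun _ _ x y => .mul x y) (fun _ n x => .pow x n) e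

/-- a monomial `n / 11 ^ j * ρ ^ k * (1 - T) ^ l` -/
structure WM where
  k : ℕ
  l : ℕ
  j : ℕ
  n : ℕ

/-- the product of monomials -/
def WM.mul (x y : WM) : WM := ⟨x.k + y.k, x.l + y.l, x.j + y.j, x.n * y.n⟩

/-- the product of lists of monomials -/
def mulW (x y : List WM) : List WM := x.flatMap fun a => y.map fun b => a.mul b

/-- the bound of an expression -/
def WG.wm (e : WG) : List WM :=
  WG.rec (motive := fun _ => List WM)
    (fun n => Bool.rec (motive := fun _ => List WM) [⟨0, 0, 0, n.natAbs⟩] [] (Nat.beq n.natAbs 0))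
    [⟨0, 0, 0, 1⟩] [⟨0, 1, 0, 1⟩] [⟨2, 0, 0, 1⟩] [⟨2, 0, 0, 2⟩] [⟨0, 0, 0, 1⟩] [⟨1, 0, 1, 3⟩]
    [⟨1, 0, 1, 3⟩] [⟨0, 0, 1, 25⟩] [⟨0, 0, 0, 1⟩] (fun _ _ x y => x ++ y)
    (fun _ _ x y => x ++ y) (fun _ _ x y => mulW x y)
    (fun _ n x => Nat.rec (motive := fun _ => List WM) [⟨0, 0, 0, 1⟩] (fun _ y => mulW x y) n) e

/-- the value of a monomial -/
def WM.ev (r a : ℝ) (x : WM) : ℝ := x.n / 11 ^ x.j * r ^ x.k * a ^ x.l

/-- the value of a list of monomials -/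
def evW (r a : ℝ) (x : List WM) : ℝ := (x.map (WM.ev r a)).sum

lemma evW_nil (r a : ℝ) : evW r a [] = 0 := rfl

lemma evW_cons (r a : ℝ) (x : WM) (l : List WM) : evW r a (x :: l) = x.ev r a + evW r a l := by
  simp [evW]

lemma evW_append (r a : ℝ) (x y : List WM) : evW r a (x ++ y) = evW r a x + evW r a y := by
  simp [evW]

lemma evW_mul (r a : ℝ) (x y : List WM) : evW r a (mulW x y) = evW r a x * evW r a y := by
  induction x with
  | nil => simp [mulW, evW]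
  | cons b x ih =>
    have e1 : mulW (b :: x) y = y.map (fun c => b.mul c) ++ mulW x y := by
      simp [mulW]
    rw [e1, evW_append, ih, evW_cons, add_mul]
    congr 1
    clear ih e1
    induction y with
    | nil => simp [evW]
    | cons c y ih =>
      rw [List.map_cons, evW_cons, ih, evW_cons, mul_add]
      congr 1
      simp only [WM.ev, WM.mul]
      push_cast
      rw [pow_add, pow_add, pow_add]
      field_simp

lemma evW_nonneg {r a : ℝ} (hr : 0 ≤ r) (ha : 0 ≤ a) (x : List WM) : 0 ≤ evW r a x := by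
  unfold evW
  refine List.sum_nonneg fun y hy => ?_
  obtain ⟨z, _, rfl⟩ := List.mem_map.1 hy
  unfold WM.ev
  positivity

/-- the ranges of the variables -/
structure RgG (f : ℕ → ℝ) : Prop where
  r : Rg f
  t2 : f 1 ^ 2 ≤ 9 / 121 * (1 - f 4 * f 0)
  u2 : f 2 ^ 2 ≤ 9 / 121 * (1 - f 4 * f 0)
  v3 : |f 3| ≤ 25 / 11
  d1 : |f 0 + (f 1 + f 3)| ≤ 1
  P1 : 1 - f 4 * f 0 ≤ 1 + f 4

theorem WG.le {f : ℕ → ℝ} (h : RgG f) (e : WG) :
    |PE.ev f e.pe| ≤ evW (rho f) (1 - f 4) e.wm := by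
  have h0 := h.r.rho0
  have h2 := h.r.rho2
  have ha : 0 ≤ 1 - f 4 := by linarith [h.r.T1]
  induction e with
  | c n =>
    have e2 : WG.pe (.c n) = .c n := rfl
    rw [e2, PE.ev_c]
    have e1 : WG.wm (.c n) = Bool.rec (motive := fun _ => List WM) [⟨0, 0, 0, n.natAbs⟩] []
      (Nat.beq n.natAbs 0) := rfl
    rw [e1]
    cases hb : Nat.beq n.natAbs 0 with
    | true =>
      have h3 : n.natAbs = 0 := Nat.eq_of_beq_eq_true hb
      have h4 : n = 0 := Int.natAbs_eq_zero.1 h3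
      subst h4
      simp [evW]
    | false =>
      simp only [evW, WM.ev, List.map_cons, List.map_nil, List.sum_cons, List.sum_nil, pow_zero,
        div_one, mul_one, add_zero, Nat.cast_natAbs]
      push_cast
      exact le_rfl
  | T =>
    have e1 : WG.wm .T = [⟨0, 0, 0, 1⟩] := rfl
    have e2 : WG.pe .T = .v 4 := rfl
    rw [e1, e2, PE.ev_v, abs_of_nonneg h.r.T0]
    simp only [evW, WM.ev, List.map_cons, List.map_nil, List.sum_cons, List.sum_nil, pow_zero,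
      div_one, mul_one, add_zero, Nat.cast_one]
    exact h.r.T1
  | a =>
    have e1 : WG.wm .a = [⟨0, 1, 0, 1⟩] := rfl
    have e2 : PE.ev f (WG.pe .a) = 1 - f 4 := by
      change PE.ev f (.sub (.c 1) (.v 4)) = _
      simp
    rw [e1, e2, abs_of_nonneg ha]
    simp [evW, WM.ev]
  | P =>
    have e1 : WG.wm .P = [⟨2, 0, 0, 1⟩] := rfl
    have e2 : PE.ev f (WG.pe .P) = 1 - f 4 * f 0 := by
      change PE.ev f pP = _
      simp [pP]
    rw [e1, e2, abs_of_pos h.r.P0]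
    simp [evW, WM.ev, h2]
  | w =>
    have e1 : WG.wm .w = [⟨2, 0, 0, 2⟩] := rfl
    have e2 : PE.ev f (WG.pe .w) = 1 - f 0 := by
      change PE.ev f (.sub (.c 1) (.v 0)) = _
      simp
    rw [e1, e2, abs_of_nonneg h.r.s0]
    simp only [evW, WM.ev, List.map_cons, List.map_nil, List.sum_cons, List.sum_nil, pow_zero,
      div_one, mul_one, add_zero, Nat.cast_ofNat, h2]
    exact h.r.sP
  | s =>
    have e1 : WG.wm .s = [⟨0, 0, 0, 1⟩] := rfl
    have e2 : PE.ev f (WG.pe .s) = f 0 := rfl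
    rw [e1, e2]
    simp only [evW, WM.ev, List.map_cons, List.map_nil, List.sum_cons, List.sum_nil, pow_zero,
      div_one, mul_one, add_zero, Nat.cast_one, abs_le]
    exact ⟨h.r.sm, by linarith [h.r.s0]⟩
  | t =>
    have e1 : WG.wm .t = [⟨1, 0, 1, 3⟩] := rfl
    have e2 : PE.ev f (WG.pe .t) = f 1 := rfl
    rw [e1, e2]
    simp only [evW, WM.ev, List.map_cons, List.map_nil, List.sum_cons, List.sum_nil, pow_zero,
      pow_one, mul_one, add_zero, Nat.cast_ofNat]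
    refine abs_le_of_sq_le_sq ?_ (by positivity)
    rw [mul_pow, h2]
    have := h.t2
    linarith
  | u =>
    have e1 : WG.wm .u = [⟨1, 0, 1, 3⟩] := rfl
    have e2 : PE.ev f (WG.pe .u) = f 2 := rfl
    rw [e1, e2]
    simp only [evW, WM.ev, List.map_cons, List.map_nil, List.sum_cons, List.sum_nil, pow_zero,
      pow_one, mul_one, add_zero, Nat.cast_ofNat]
    refine abs_le_of_sq_le_sq ?_ (by positivity)
    rw [mul_pow, h2]
    have := h.u2
    linarith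
  | v =>
    have e1 : WG.wm .v = [⟨0, 0, 1, 25⟩] := rfl
    have e2 : PE.ev f (WG.pe .v) = f 3 := rfl
    rw [e1, e2]
    simp only [evW, WM.ev, List.map_cons, List.map_nil, List.sum_cons, List.sum_nil, pow_zero,
      pow_one, mul_one, add_zero, Nat.cast_ofNat]
    exact h.v3
  | d =>
    have e1 : WG.wm .d = [⟨0, 0, 0, 1⟩] := rfl
    have e2 : PE.ev f (WG.pe .d) = f 0 + (f 1 + f 3) := by
      change PE.ev f pc = _
      simp [pc]
    rw [e1, e2]
    simp only [evW, WM.ev, List.map_cons, List.map_nil, List.sum_cons, List.sum_nil, pow_zero,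
      div_one, mul_one, add_zero, Nat.cast_one]
    exact h.d1
  | add x y hx hy =>
    have e1 : WG.wm (.add x y) = x.wm ++ y.wm := rfl
    have e2 : WG.pe (.add x y) = .add x.pe y.pe := rfl
    rw [e1, e2, PE.ev_add, evW_append]
    exact (abs_add_le _ _).trans (add_le_add hx hy)
  | sub x y hx hy =>
    have e1 : WG.wm (.sub x y) = x.wm ++ y.wm := rfl
    have e2 : WG.pe (.sub x y) = .sub x.pe y.pe := rfl
    rw [e1, e2, PE.ev_sub, evW_append]
    exact (abs_sub _ _).trans (add_le_add hx hy)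
  | mul x y hx hy =>
    have e1 : WG.wm (.mul x y) = mulW x.wm y.wm := rfl
    have e2 : WG.pe (.mul x y) = .mul x.pe y.pe := rfl
    rw [e1, e2, PE.ev_mul, abs_mul, evW_mul]
    exact mul_le_mul hx hy (abs_nonneg _) ((abs_nonneg _).trans hx)
  | pow x n hx =>
    have e1 : WG.wm (.pow x n) = Nat.rec (motive := fun _ => List WM) [⟨0, 0, 0, 1⟩]
      (fun _ y => mulW x.wm y) n := rfl
    have e2 : WG.pe (.pow x n) = .pow x.pe n := rfl
    rw [e1, e2, PE.ev_pow, abs_pow]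
    clear e1 e2
    induction n with
    | zero => simp [evW, WM.ev]
    | succ n ih =>
      have e3 : (Nat.rec (motive := fun _ => List WM) [⟨0, 0, 0, 1⟩] (fun _ y => mulW x.wm y)
        (n + 1)) = mulW x.wm (Nat.rec (motive := fun _ => List WM) [⟨0, 0, 0, 1⟩]
          (fun _ y => mulW x.wm y) n) := rfl
      rw [e3, evW_mul, pow_succ']
      exact mul_le_mul hx ih (by positivity) ((abs_nonneg _).trans hx)

/-- the exponents of a monomial are large enough -/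
def WM.ok (h n J : ℕ) (x : WM) : Bool :=
  decide (2 * n ≤ x.k + 2 * (h + x.l)) && decide (x.j ≤ J)

/-- the final bound of a monomial, times `11 ^ J` -/
def WM.bd (h n J : ℕ) (x : WM) : ℕ :=
  x.n * 11 ^ (J - x.j) * 2 ^ ((x.k - 2 * n - 2 * (h + x.l) + 1) / 2)

/-- the exponents are large enough -/
def WG.ok (h n J : ℕ) (e : WG) : Bool := e.wm.all (WM.ok h n J)

/-- the final bound, times `11 ^ J` -/
def WG.bd (h n J : ℕ) (e : WG) : ℕ := (e.wm.map (WM.bd h n J)).sum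

lemma rho_alpha {f : ℕ → ℝ} (hf : RgG f) {k g n : ℕ} (hk : 2 * n ≤ k + 2 * g) :
    rho f ^ k * (1 - f 4) ^ g ≤ 2 ^ ((k - 2 * n - 2 * g + 1) / 2) * rho f ^ (2 * n) := by
  have h0 := hf.r.rho0
  have h2 := hf.r.rho2
  have ha : 0 ≤ 1 - f 4 := by linarith [hf.r.T1]
  obtain ⟨α, hα⟩ : ∃ α, α = √(1 - f 4) := ⟨_, rfl⟩
  have hα0 : 0 ≤ α := by rw [hα]; exact Real.sqrt_nonneg _
  have hα2 : α ^ 2 = 1 - f 4 := by rw [hα]; exact Real.sq_sqrt ha
  have hα1 : α ≤ 1 := by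
    have := hf.r.T0
    nlinarith
  have hαρ : α ≤ rho f := by
    refine abs_le_of_sq_le_sq' ?_ h0.le |>.2
    rw [hα2, h2]
    exact hf.r.TP
  have hαρ1 : rho f * α ≤ 1 := by
    refine abs_le_of_sq_le_sq' (a := rho f * α) (b := 1) ?_ zero_le_one |>.2
    rw [mul_pow, hα2, h2]
    have h3 := hf.P1
    have h4 := hf.r.T0
    have h5 := hf.r.P0
    nlinarith [sq_nonneg (f 4), mul_nonneg ha (sub_nonneg.2 h3)]
  rw [← hα2, ← pow_mul]
  rcases le_total k (2 * n) with hk1 | hk1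
  · have e1 : k - 2 * n - 2 * g = 0 := by omega
    rw [e1]
    have e2 : α ^ (2 * g) = α ^ (2 * n - k) * α ^ (2 * g - (2 * n - k)) := by
      rw [← pow_add]
      congr 1
      omega
    have e3 : rho f ^ (2 * n) = rho f ^ k * rho f ^ (2 * n - k) := by
      rw [← pow_add]
      congr 1
      omega
    rw [e2, e3]
    have h3 : α ^ (2 * n - k) ≤ rho f ^ (2 * n - k) := pow_le_pow_left₀ hα0 hαρ _
    have h4 : α ^ (2 * g - (2 * n - k)) ≤ 1 := pow_le_one₀ hα0 hα1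
    calc rho f ^ k * (α ^ (2 * n - k) * α ^ (2 * g - (2 * n - k)))
        ≤ rho f ^ k * (rho f ^ (2 * n - k) * 1) := by gcongr
      _ = _ := by norm_num
  · rcases le_total (k - 2 * n) (2 * g) with hk2 | hk2
    · have e1 : k - 2 * n - 2 * g = 0 := by omega
      rw [e1]
      have e2 : α ^ (2 * g) = α ^ (k - 2 * n) * α ^ (2 * g - (k - 2 * n)) := by
        rw [← pow_add]
        congr 1
        omega
      have e3 : rho f ^ k = rho f ^ (2 * n) * rho f ^ (k - 2 * n) := by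
        rw [← pow_add]
        congr 1
        omega
      rw [e2, e3]
      have h3 : (rho f * α) ^ (k - 2 * n) ≤ 1 := pow_le_one₀ (by positivity) hαρ1
      have h4 : α ^ (2 * g - (k - 2 * n)) ≤ 1 := pow_le_one₀ hα0 hα1
      calc rho f ^ (2 * n) * rho f ^ (k - 2 * n) * (α ^ (k - 2 * n) * α ^ (2 * g - (k - 2 * n)))
          = rho f ^ (2 * n) * ((rho f * α) ^ (k - 2 * n) * α ^ (2 * g - (k - 2 * n))) := by
            rw [mul_pow]
            ring
        _ ≤ rho f ^ (2 * n) * (1 * 1) := by gcongr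
        _ = _ := by norm_num
    · have e3 : rho f ^ k = rho f ^ (2 * n) * rho f ^ (2 * g) * rho f ^ (k - 2 * n - 2 * g) := by
        rw [← pow_add, ← pow_add]
        congr 1
        omega
      rw [e3]
      have h3 : (rho f * α) ^ (2 * g) ≤ 1 := pow_le_one₀ (by positivity) hαρ1
      have h4 := hf.r.rho_le (k - 2 * n - 2 * g)
      calc rho f ^ (2 * n) * rho f ^ (2 * g) * rho f ^ (k - 2 * n - 2 * g) * α ^ (2 * g)
          = rho f ^ (2 * n) * ((rho f * α) ^ (2 * g) * rho f ^ (k - 2 * n - 2 * g)) := by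
            rw [mul_pow]
            ring
        _ ≤ rho f ^ (2 * n) * (1 * 2 ^ ((k - 2 * n - 2 * g + 1) / 2)) := by gcongr
        _ = _ := by ring

theorem WG.le_bd {f : ℕ → ℝ} (hf : RgG f) {e : WG} {h n J : ℕ} (hn : WG.ok h n J e = true) :
    11 ^ J * (|PE.ev f e.pe| * (1 - f 4) ^ h) ≤ WG.bd h n J e * (1 - f 4 * f 0) ^ n := by
  have h0 := hf.r.rho0
  have h2 := hf.r.rho2
  have hT : 0 ≤ 1 - f 4 := by linarith [hf.r.T1]
  have k1 := e.le hf
  unfold WG.ok at hn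
  unfold WG.bd
  rw [← h2, ← pow_mul]
  have key : 11 ^ J * (evW (rho f) (1 - f 4) e.wm * (1 - f 4) ^ h)
      ≤ ((e.wm.map (WM.bd h n J)).sum : ℕ) * rho f ^ (2 * n) := by
    generalize e.wm = l at hn
    clear k1
    induction l with
    | nil => simp [evW]
    | cons x l ih =>
      rw [List.all_cons, Bool.and_eq_true] at hn
      have h4 := ih hn.2
      have h5 := hn.1
      unfold WM.ok at h5
      rw [Bool.and_eq_true, decide_eq_true_eq, decide_eq_true_eq] at h5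
      rw [evW_cons, List.map_cons, List.sum_cons, add_mul, mul_add, Nat.cast_add, add_mul]
      refine add_le_add ?_ h4
      have h6 := rho_alpha hf (k := x.k) (g := h + x.l) (n := n) h5.1
      have e5 : (11 : ℝ) ^ J = 11 ^ x.j * 11 ^ (J - x.j) := by
        rw [← pow_add]
        congr 1
        omega
      unfold WM.ev WM.bd
      push_cast
      calc (11 : ℝ) ^ J * (x.n / 11 ^ x.j * rho f ^ x.k * (1 - f 4) ^ x.l * (1 - f 4) ^ h)
          = x.n * 11 ^ (J - x.j) * (rho f ^ x.k * (1 - f 4) ^ (h + x.l)) := by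
            rw [e5, pow_add (1 - f 4)]
            field_simp
        _ ≤ x.n * 11 ^ (J - x.j) * (2 ^ ((x.k - 2 * n - 2 * (h + x.l) + 1) / 2)
            * rho f ^ (2 * n)) := by gcongr
        _ = _ := by ring
  refine le_trans ?_ key
  gcongr

/-- the ranges on unit vectors -/
theorem rgG_vT {E : Type*} [NormedAddCommGroup E] [InnerProductSpace ℝ E] {x N y w : E}
    (hx : ‖x‖ = 1) (hN : ‖N‖ = 1) (hy : ‖y‖ = 1) (hw : ‖w‖ = 1) (hxN : ⟪x, N⟫ = 0)
    (hyw : ⟪y, w⟫ = 0) {T : ℝ} (h0 : 0 < T) (h1 : T < 1) :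
    RgG (vT T ⟪x, y⟫ ⟪x, w⟫ ⟪N, y⟫ ⟪N, w⟫) := by
  have hr := rg_vT hx hN hy hw hxN hyw h0 h1
  have h6 : √(30 : ℝ) ^ 2 = 30 := Real.sq_sqrt (by norm_num)
  have hs := abs_real_inner_le_norm x y
  have hc := abs_real_inner_le_norm N w
  rw [hx, hy, one_mul] at hs
  rw [hN, hw, one_mul] at hc
  obtain ⟨hs1, hs2⟩ := abs_le.1 hs
  have ht : ⟪x, y⟫ ^ 2 + ⟪x, w⟫ ^ 2 ≤ 1 := by
    have e1 : 0 ≤ ‖x - ⟪x, y⟫ • y - ⟪x, w⟫ • w‖ ^ 2 := sq_nonneg _
    have e2 : ‖x - ⟪x, y⟫ • y - ⟪x, w⟫ • w‖ ^ 2 = 1 - ⟪x, y⟫ ^ 2 - ⟪x, w⟫ ^ 2 := by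
      rw [← real_inner_self_eq_norm_sq]
      simp only [inner_sub_left, inner_sub_right, real_inner_smul_left, real_inner_smul_right]
      have a1 : ⟪x, x⟫ = 1 := by rw [real_inner_self_eq_norm_sq, hx]; norm_num
      have a2 : ⟪y, y⟫ = 1 := by rw [real_inner_self_eq_norm_sq, hy]; norm_num
      have a3 : ⟪w, w⟫ = 1 := by rw [real_inner_self_eq_norm_sq, hw]; norm_num
      rw [a1, a2, a3, real_inner_comm x y, real_inner_comm x w, real_inner_comm y w, hyw]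
      ring
    linarith
  have hp : ⟪x, y⟫ ^ 2 + ⟪N, y⟫ ^ 2 ≤ 1 := by
    have e1 : 0 ≤ ‖y - ⟪x, y⟫ • x - ⟪N, y⟫ • N‖ ^ 2 := sq_nonneg _
    have e2 : ‖y - ⟪x, y⟫ • x - ⟪N, y⟫ • N‖ ^ 2 = 1 - ⟪x, y⟫ ^ 2 - ⟪N, y⟫ ^ 2 := by
      rw [← real_inner_self_eq_norm_sq]
      simp only [inner_sub_left, inner_sub_right, real_inner_smul_left, real_inner_smul_right]
      have a1 : ⟪x, x⟫ = 1 := by rw [real_inner_self_eq_norm_sq, hx]; norm_num
      have a2 : ⟪y, y⟫ = 1 := by rw [real_inner_self_eq_norm_sq, hy]; norm_num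
      have a3 : ⟪N, N⟫ = 1 := by rw [real_inner_self_eq_norm_sq, hN]; norm_num
      have a4 : ⟪N, x⟫ = 0 := by rw [real_inner_comm, hxN]
      rw [a1, a2, a3, a4, hxN, real_inner_comm x y, real_inner_comm N y]
      ring
    linarith
  have hv0 : vT T ⟪x, y⟫ ⟪x, w⟫ ⟪N, y⟫ ⟪N, w⟫ 0 = ⟪x, y⟫ := rfl
  have hv1 : vT T ⟪x, y⟫ ⟪x, w⟫ ⟪N, y⟫ ⟪N, w⟫ 1 = (⟪x, w⟫ + ⟪N, y⟫) / (2 * √30) := rfl
  have hv2 : vT T ⟪x, y⟫ ⟪x, w⟫ ⟪N, y⟫ ⟪N, w⟫ 2 = (⟪N, y⟫ - ⟪x, w⟫) / (2 * √30) := rfl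
  have hv3 : vT T ⟪x, y⟫ ⟪x, w⟫ ⟪N, y⟫ ⟪N, w⟫ 3
    = ⟪N, w⟫ - ⟪x, y⟫ - (⟪x, w⟫ + ⟪N, y⟫) / (2 * √30) := rfl
  have hv4 : vT T ⟪x, y⟫ ⟪x, w⟫ ⟪N, y⟫ ⟪N, w⟫ 4 = T := rfl
  rw [show vT T ⟪x, y⟫ ⟪x, w⟫ ⟪N, y⟫ ⟪N, w⟫ = vT T ⟪x, y⟫ ⟪x, w⟫ ⟪N, y⟫ ⟪N, w⟫ from rfl] at hr
  generalize vT T ⟪x, y⟫ ⟪x, w⟫ ⟪N, y⟫ ⟪N, w⟫ = f at *
  generalize ⟪x, y⟫ = s at *
  generalize ⟪x, w⟫ = t at *
  generalize ⟪N, y⟫ = p at *
  generalize ⟪N, w⟫ = c at *
  have hTs : T * s ≤ T := by nlinarith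
  have hTs' : -T ≤ T * s := by nlinarith
  have hPs : 1 - s ^ 2 ≤ 2 * (1 - T * s) := by
    rcases le_total 0 s with h | h
    · nlinarith
    · nlinarith [mul_nonneg h0.le (neg_nonneg.2 h)]
  have ht2 : t ^ 2 ≤ 2 * (1 - T * s) := by linarith
  have hp2 : p ^ 2 ≤ 2 * (1 - T * s) := by linarith
  have ht1 : t ^ 2 ≤ 1 := by nlinarith
  have hp1 : p ^ 2 ≤ 1 := by nlinarith
  have h2 : (t + p) ^ 2 ≤ 2 * (t ^ 2 + p ^ 2) := by nlinarith [sq_nonneg (t - p)]
  have h2' : (p - t) ^ 2 ≤ 2 * (t ^ 2 + p ^ 2) := by nlinarith [sq_nonneg (t + p)]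
  have e1 : ((t + p) / (2 * √30)) ^ 2 = (t + p) ^ 2 / 120 := by
    rw [div_pow, mul_pow, h6]; norm_num
  have e2 : ((p - t) / (2 * √30)) ^ 2 = (p - t) ^ 2 / 120 := by
    rw [div_pow, mul_pow, h6]; norm_num
  have hP0 : 0 < 1 - T * s := by linarith
  have k3 : |(t + p) / (2 * √30)| ≤ 3 / 11 := by
    refine abs_le_of_sq_le_sq ?_ (by norm_num)
    rw [e1]
    linarith
  obtain ⟨k5, k6⟩ := abs_le.1 k3
  obtain ⟨k7, k8⟩ := abs_le.1 hc
  exact
    { r := hr
      t2 := by rw [hv1, hv0, hv4, e1]; linarith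
      u2 := by rw [hv2, hv0, hv4, e2]; linarith
      v3 := by
        rw [hv3, abs_le]
        constructor <;> linarith
      d1 := by
        rw [hv0, hv1, hv3]
        have e3 : s + ((t + p) / (2 * √30) + (c - s - (t + p) / (2 * √30))) = c := by ring
        rw [e3]
        exact hc
      P1 := by rw [hv0, hv4]; linarith }

end

end Vale.Agent.P224.S11
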