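import Vale.Agent.P224.OT.Sharp

/-!
The certificate with a parameter in dimension 11 at the parameter zero: the static rows and the
identity with the resources.
-/

namespace Vale.Agent.P224.S11

open MeasureTheory Set Vale.Agent.P224.UE Vale.Agent.P224.PO
open scoped RealInnerProductSpace

noncomputable section

/-- the rows at the parameter zero; `r` is a square root of `30`, `l` the number
`log (24 / 5)`, `κ` the coefficient of `s ^ 3` -/
def S0 (r l κ : ℝ) : OT.SCert :=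
  [(⟨0, 0, 0, 0, 0, 0, 0, 0⟩, fun _ => (30 * l - 47) * (-150 / 9317) + κ * (-191647 / 15782998)),
   (⟨0, 0, 0, 1, 0, 0, 0, 0⟩, fun _ => ((30 * l - 47) * (17 / 11)) * (r * (1 / 30))),
   (⟨0, 1, 0, 0, 0, 0, 0, 0⟩, fun _ => (30 * l - 47) * (-35087 / 3388)),
   (⟨1, 0, 0, 1, 0, 0, 0, 0⟩, fun _ => ((30 * l - 47) * (-45 / 2)) * (1 / 30)),
   (⟨3, 0, 0, 0, 0, 0, 0, 0⟩, fun _ => (30 * l - 47) * (-279 / 968)),
   (⟨0, 0, 0, 2, 0, 0, 0, 0⟩, fun _ => (κ * (-371475 / 1434818)) * (1 / 30)),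
   (⟨0, 1, 0, 1, 0, 0, 0, 0⟩, fun _ => (κ * (21825 / 717409)) * (r * (1 / 30))),
   (⟨0, 2, 0, 0, 0, 0, 0, 0⟩, fun _ => κ * (-108431 / 1434818)),
   (⟨1, 0, 0, 0, 0, 0, 0, 0⟩, fun _ => (κ * (18450 / 7891499)) * (r * (1 / 30))),
   (⟨1, 0, 0, 2, 0, 0, 0, 0⟩, fun _ => (κ * (-50625 / 717409)) * (r * (1 / 900))),
   (⟨1, 1, 0, 1, 0, 0, 0, 0⟩, fun _ => (κ * (378225 / 717409)) * (1 / 30)),
   (⟨1, 2, 0, 0, 0, 0, 0, 0⟩, fun _ => (κ * (-20145 / 717409)) * (r * (1 / 30))),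
   (⟨3, 1, 0, 0, 0, 0, 0, 0⟩, fun _ => κ * (8405 / 2869636))]

/-- the symmetrised rows at the parameter zero -/
def R00 (r l κ : ℝ) (d : R9) : ℝ :=
  (OT.Rs 11 (S0 r l κ) 0 d + OT.Rs 11 (S0 r l κ) 0 (sw9 d)) / 2

/-- the rows with the special value at the parameter zero -/
def RoT (r l κ : ℝ) (S : OT.SCert) (T : ℝ) (d : R9) : ℝ :=
  if T = 0 then R00 r l κ d else (OT.Rs 11 S T d + OT.Rs 11 S T (sw9 d)) / 2

lemma RoT_zero (r l κ : ℝ) (S : OT.SCert) (d : R9) : RoT r l κ S 0 d = R00 r l κ d :=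
  if_pos rfl

lemma RoT_pos (r l κ : ℝ) (S : OT.SCert) {T : ℝ} (hT : 0 < T) (d : R9) :
    RoT r l κ S T d = (OT.Rs 11 S T d + OT.Rs 11 S T (sw9 d)) / 2 :=
  if_neg hT.ne'

/-- the static rows are null -/
theorem null_R00 {X : Type*} [MeasurableSpace X] {E : Type*} [NormedAddCommGroup E]
    [InnerProductSpace ℝ E] [MeasurableSpace E] [BorelSpace E] [SecondCountableTopology E]
    {μ : Measure X} [IsFiniteMeasure μ] {p n : X → E} (hG : TwoG μ 11 p n) (r l κ : ℝ) :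
    Null μ p n 0 (R00 r l κ) := by
  have e : R00 r l κ = fun d => (OT.Rs 11 (S0 r l κ) 0 d
      + OT.Rs 11 (S0 r l κ) 0 (sw9 d)) / 2 := rfl
  rw [e]
  exact OT.null_sym hG _ ⟨le_rfl, one_pos⟩

/-- the rows are null -/
theorem null_RoT {X : Type*} [MeasurableSpace X] {E : Type*} [NormedAddCommGroup E]
    [InnerProductSpace ℝ E] [MeasurableSpace E] [BorelSpace E] [SecondCountableTopology E]
    {μ : Measure X} [IsFiniteMeasure μ] {p n : X → E} (hG : TwoG μ 11 p n) (r l κ : ℝ)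
    (S : OT.SCert) {T : ℝ} (hT : T ∈ Ico (0 : ℝ) 1) : Null μ p n 0 (RoT r l κ S T) := by
  rcases hT.1.eq_or_lt with h | h
  · subst h
    have e : RoT r l κ S 0 = R00 r l κ := by
      funext d
      exact RoT_zero _ _ _ _ _
    rw [e]
    exact null_R00 hG r l κ
  · have e : RoT r l κ S T = fun d => (OT.Rs 11 S T d + OT.Rs 11 S T (sw9 d)) / 2 := by
      funext d
      exact RoT_pos _ _ _ _ h _
    rw [e]
    exact OT.null_sym hG _ hT

/-- the value part at the parameter zero (the functions of the base) -/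
def G00 (r l K : ℝ) (s t p c : ℝ) : ℝ :=
  ((1023842226858803550 + (-645102655963771500) * l - 0 * K) / 13181399182228200) * (1) +
    ((54857653031115000 + (-35015523211350000) * l - 0 * K) / 13181399182228200) * ((1 - s) ^ 2) +
    ((95615722049126400 + (-79679768374272000) * l - (-159359536748544000) * K) / 13181399182228200) * (c) +
    ((15360142848712200 + (-9804346499178000) * l - 0 * K) / 13181399182228200) * (c * (r / 30 * (t + p) / 2)) +
    ((12800119040593500 + (-8170288749315000) * l - 0 * K) / 13181399182228200) * (c * (r / 30 * (t + p) / 2)) +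
    ((-118162287475961087700 + 75422736686783673000 * l - 0 * K) / 13181399182228200) * (((t ^ 2 + p ^ 2) / 60)) +
    ((-182615641175278723500 + 116563175218263015000 * l - 0 * K) / 13181399182228200) * (((t ^ 2 + p ^ 2) / 60)) +
    ((-117433777843707880500 + 74957730538536945000 * l - 0 * K) / 13181399182228200) * (((t ^ 2 + p ^ 2) / 60))

/-- **The identity at the parameter zero.** -/
theorem zero_id {r : ℝ} (hr : r ^ 2 = 30) (l K κ : ℝ) (d : R9) :
    1 + ((6144 / 847) + (-5120 / 847) * l + (10240 / 847) * K + (8405 / 2869636) * κ) * d 3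
      - ((147 / 88) * (30 * l - 47) * RF (-(118/21)) 74 (-((2 / 5) * r)) d + κ * d 0 ^ 3)
      + R00 r l κ d
      = G00 r l K (d 0) (d 1) (d 2) (d 3)
        + (30 * l - 47) * ((3 / 4) * (d 3 - d 0 - r / 60 * (d 1 + d 2)) ^ 2
          - (8337 / 44) * (r / 60 * (d 2 - d 1)) ^ 2)
        + κ * ((6750 / 717409) * ((r / 60 * (d 2 - d 1)) ^ 2 * (d 3 - d 0 - r / 60 * (d 1 + d 2))) +
          (3375 / 717409) * ((r / 60 * (d 1 + d 2)) * (d 3 - d 0 - r / 60 * (d 1 + d 2)) ^ 2) +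
          (239625 / 65219) * ((r / 60 * (d 1 + d 2)) * (r / 60 * (d 2 - d 1)) ^ 2) +
          (-25215 / 1434818) * (d 0 * (d 3 - d 0 - r / 60 * (d 1 + d 2)) ^ 2) +
          (275235 / 130438) * (d 0 * (r / 60 * (d 2 - d 1)) ^ 2)) := by
  have e0 : sw9 d 0 = d 0 := rfl
  have e1 : sw9 d 1 = d 2 := rfl
  have e2 : sw9 d 2 = d 1 := rfl
  have e3 : sw9 d 3 = d 3 := rfl
  obtain ⟨s, hs⟩ : ∃ s, d 0 = s := ⟨_, rfl⟩
  obtain ⟨t, ht⟩ : ∃ t, d 1 = t := ⟨_, rfl⟩
  obtain ⟨p, hp⟩ : ∃ p, d 2 = p := ⟨_, rfl⟩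
  obtain ⟨c, hc⟩ : ∃ c, d 3 = c := ⟨_, rfl⟩
  have k0 : ∀ q s, SM2.ker 0 q s = 1 := by
    intro q s
    simp [SM2.ker]
  simp only [R00, S0, OT.Rs, OT.STerm.R, rG, rowE, sk, sk', RF, G00, List.map_cons, List.map_nil,
    List.sum_cons, List.sum_nil, e0, e1, e2, e3, hs, ht, hp, hc, k0, pow_zero, pow_one, one_mul,
    mul_one, Nat.cast_zero, Nat.cast_one, Nat.cast_ofNat, zero_mul, mul_zero, add_zero, zero_add,
    Nat.sub_self, Nat.add_one_sub_one, Nat.reduceSub]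
  linear_combination (
    (-8131 / 3300) * p ^ 2 + (173 / 110) * p ^ 2 * l + (-195 / 11478544) * p ^ 3 * r * κ +
    (4371 / 880) * t * p + (-279 / 88) * t * p * l + (15 / 1434818) * t * p * c * κ + (97 /
    5739272) * t * p ^ 2 * r * κ + (-8131 / 3300) * t ^ 2 + (173 / 110) * t ^ 2 * l + (97 /
    5739272) * t ^ 2 * p * r * κ + (-195 / 11478544) * t ^ 3 * r * κ + (-14297 / 24596880) * s
    * p ^ 2 * κ + (1681 / 1434818) * s * t * p * κ + (-14297 / 24596880) * s * t ^ 2 * κ) * hr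

end

end Vale.Agent.P224.S11
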